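import Vale.Agent.P257.H134.W2
import Mathlib.Algebra.BigOperators.NatAntidiagonal

/-!
# Composition of additive series and the classes `b_{ij}`

A strict additive series `x + t_1 x^p + t_2 x^{p^2} + …` over a ring of characteristic `p` is
given by its coefficients `g : ℕ → B`, `g 0 = 1`.  `comp p g h` is the sequence of coefficients
`∑_{a+b=i} g_a h_b^{p^a}` of the composition `g(h(x))`.

`bb p j g h i` is the universal element
` ((∑ g_a^{p^j} h_b^{p^{a+j}})^p - ∑ (g_a^{p^j} h_b^{p^{a+j}})^p)/p`; it satisfies the exact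
cocycle formula `bb_cocycle`.
-/

namespace Vale.Agent.P257.H134

open Finset

variable {B : Type*} [CommRing B] (p : ℕ)

/-- coefficients of the composition of additive series -/
def comp (g h : ℕ → B) (i : ℕ) : B := ∑ ab ∈ antidiagonal i, g ab.1 * h ab.2 ^ p ^ ab.1

variable [hp : Fact p.Prime]

/-- the universal `b_{ij}` -/
def bb (j : ℕ) (g h : ℕ → B) (i : ℕ) : B :=
  gam p (antidiagonal i) fun ab => g ab.1 ^ p ^ j * h ab.2 ^ p ^ (ab.1 + j)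

theorem comp_pow [CharP B p] (g h : ℕ → B) (i j : ℕ) :
    comp p g h i ^ p ^ j = ∑ ab ∈ antidiagonal i, g ab.1 ^ p ^ j * h ab.2 ^ p ^ (ab.1 + j) := by
  rw [comp, sum_pow_char_pow]
  refine sum_congr rfl fun ab _ => ?_
  rw [mul_pow, ← pow_mul, ← pow_add]

/-- Associativity of composition. -/
theorem comp_assoc [CharP B p] (g h k : ℕ → B) :
    comp p (comp p g h) k = comp p g (comp p h k) := by
  funext i
  simp only [comp, sum_mul, sum_pow_char_pow, mul_sum, mul_pow]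
  rw [sum_sigma', sum_sigma']
  refine sum_nbij' (fun x => ⟨(x.2.1, x.2.2 + x.1.2), (x.2.2, x.1.2)⟩)
    (fun x => ⟨(x.1.1 + x.2.1, x.2.2), (x.1.1, x.2.1)⟩) ?_ ?_ ?_ ?_ ?_
  · rintro ⟨⟨n, c⟩, ⟨a, b⟩⟩ h
    simp only [mem_sigma, mem_antidiagonal, and_true] at h ⊢
    omega
  · rintro ⟨⟨a, m⟩, ⟨b, c⟩⟩ h
    simp only [mem_sigma, mem_antidiagonal, and_true] at h ⊢
    omega
  · rintro ⟨⟨n, c⟩, ⟨a, b⟩⟩ h
    simp only [mem_sigma, mem_antidiagonal] at h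
    obtain ⟨-, rfl⟩ := h
    rfl
  · rintro ⟨⟨a, m⟩, ⟨b, c⟩⟩ h
    simp only [mem_sigma, mem_antidiagonal] at h
    obtain ⟨-, rfl⟩ := h
    rfl
  · rintro ⟨⟨n, c⟩, ⟨a, b⟩⟩ h
    simp only [mem_sigma, mem_antidiagonal] at h
    obtain ⟨-, rfl⟩ := h
    simp only
    rw [← pow_mul, ← pow_add, add_comm a b, mul_assoc]

/-- The exact coboundary formula of the cochains `b_{ij}`. -/
theorem bb_cocycle [CharP B p] (j : ℕ) (g h k : ℕ → B) (i : ℕ) :
    bb p j (comp p g h) k i +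
        ∑ nc ∈ antidiagonal i, bb p j g h nc.1 * k nc.2 ^ p ^ (nc.1 + j + 1) =
      bb p j g (comp p h k) i +
        ∑ am ∈ antidiagonal i, g am.1 ^ p ^ (j + 1) * bb p (am.1 + j) h k am.2 := by
  have hS : ∑ nc ∈ antidiagonal i, ∑ ab ∈ antidiagonal nc.1,
      W2.te p ((g ab.1 ^ p ^ j * h ab.2 ^ p ^ (ab.1 + j)) * k nc.2 ^ p ^ (nc.1 + j)) =
      ∑ am ∈ antidiagonal i, ∑ bc ∈ antidiagonal am.2,
      W2.te p (g am.1 ^ p ^ j * (h bc.1 ^ p ^ (am.1 + j) * k bc.2 ^ p ^ (bc.1 + (am.1 + j)))) := by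
    rw [sum_sigma', sum_sigma']
    refine sum_nbij' (fun x => ⟨(x.2.1, x.2.2 + x.1.2), (x.2.2, x.1.2)⟩)
      (fun x => ⟨(x.1.1 + x.2.1, x.2.2), (x.1.1, x.2.1)⟩) ?_ ?_ ?_ ?_ ?_
    · rintro ⟨⟨n, c⟩, ⟨a, b⟩⟩ h
      simp only [mem_sigma, mem_antidiagonal, and_true] at h ⊢
      omega
    · rintro ⟨⟨a, m⟩, ⟨b, c⟩⟩ h
      simp only [mem_sigma, mem_antidiagonal, and_true] at h ⊢
      omega
    · rintro ⟨⟨n, c⟩, ⟨a, b⟩⟩ h
      simp only [mem_sigma, mem_antidiagonal] at h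
      obtain ⟨-, rfl⟩ := h
      rfl
    · rintro ⟨⟨a, m⟩, ⟨b, c⟩⟩ h
      simp only [mem_sigma, mem_antidiagonal] at h
      obtain ⟨-, rfl⟩ := h
      rfl
    · rintro ⟨⟨n, c⟩, ⟨a, b⟩⟩ h
      simp only [mem_sigma, mem_antidiagonal] at h
      obtain ⟨-, rfl⟩ := h
      simp only
      rw [mul_assoc, show a + b + j = b + (a + j) by ring]
  have hL : ∀ nc ∈ antidiagonal i, ∑ ab ∈ antidiagonal nc.1,
      W2.te p ((g ab.1 ^ p ^ j * h ab.2 ^ p ^ (ab.1 + j)) * k nc.2 ^ p ^ (nc.1 + j)) =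
      W2.te p (comp p g h nc.1 ^ p ^ j * k nc.2 ^ p ^ (nc.1 + j)) +
        W2.ve p (bb p j g h nc.1 * k nc.2 ^ p ^ (nc.1 + j + 1)) := by
    intro nc _
    rw [sum_te', ← sum_mul, ← comp_pow, gam_smul', ← pow_mul, ← pow_succ]
    rfl
  have hR : ∀ am ∈ antidiagonal i, ∑ bc ∈ antidiagonal am.2,
      W2.te p (g am.1 ^ p ^ j * (h bc.1 ^ p ^ (am.1 + j) * k bc.2 ^ p ^ (bc.1 + (am.1 + j)))) =
      W2.te p (g am.1 ^ p ^ j * comp p h k am.2 ^ p ^ (am.1 + j)) +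
        W2.ve p (g am.1 ^ p ^ (j + 1) * bb p (am.1 + j) h k am.2) := by
    intro am _
    rw [sum_te', ← mul_sum, ← comp_pow, gam_smul, ← pow_mul, ← pow_succ]
    rfl
  have hve : ∀ f : ℕ × ℕ → B, ∑ x ∈ antidiagonal i, W2.ve p (f x) =
      W2.ve p (∑ x ∈ antidiagonal i, f x) := fun f => (map_sum (W2.veHom p B) _ _).symm
  rw [sum_congr rfl hL, sum_congr rfl hR, sum_add_distrib, sum_add_distrib, hve, hve,
    sum_te, sum_te, W2.add_ve, W2.add_ve] at hS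
  exact congrArg W2.snd hS

end Vale.Agent.P257.H134
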