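import Vale.Agent.P257.H134.AddAut
import Mathlib.LinearAlgebra.Matrix.Determinant.Basic
import Mathlib.LinearAlgebra.Matrix.Block

/-!
# The determinant cocycles

For a homogeneous chain `g_0, …, g_k` of additive series, `Dl k g = det (1, t_1(g_i), …, t_k(g_i))`
is a right invariant homogeneous cocycle; its class is `k! h_{10} h_{20} ⋯ h_{k0}`.
-/

namespace Vale.Agent.P257.H134

open Finset

variable {B : Type*} [CommRing B]

/-- `det (1, t_1(g_i), …, t_k(g_i))_{0 ≤ i ≤ k}` -/
def Dl (k : ℕ) (g : Fin (k + 1) → ℕ → B) : B := Matrix.det (Matrix.of fun i j => g i (j : ℕ))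

theorem Dl_map {C : Type*} [CommRing C] (f : B →+* C) (k : ℕ) (g : Fin (k + 1) → ℕ → B) :
    f (Dl k g) = Dl k (fun i j => f (g i j)) := by
  rw [Dl, RingHom.map_det]
  rfl

/-- The exact cocycle identity. -/
theorem Dl_cocycle (k : ℕ) (g : Fin (k + 2) → ℕ → B) (h1 : ∀ i, g i 0 = 1) :
    ∑ i : Fin (k + 2), (-1 : B) ^ (i : ℕ) * Dl k (fun a => g (i.succAbove a)) = 0 := by
  let M : Matrix (Fin (k + 2)) (Fin (k + 2)) B :=
    Matrix.of fun i j => Fin.cases (motive := fun _ => B) 1 (fun j' : Fin (k + 1) => g i (j' : ℕ)) j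
  have h0 : M.det = 0 := by
    refine Matrix.det_zero_of_column_eq (i := 0) (j := (0 : Fin (k + 1)).succ) ?_ ?_
    · exact (Fin.succ_ne_zero _).symm
    · intro i
      change (1 : B) = g i ((0 : Fin (k + 1)) : ℕ)
      rw [Fin.val_zero, h1]
  rw [Matrix.det_succ_column_zero] at h0
  rw [← h0]
  refine sum_congr rfl fun i _ => ?_
  change _ = (-1) ^ (i : ℕ) * (1 : B) * _
  rw [mul_one]
  rfl

variable (p : ℕ)

/-- Right invariance. -/
theorem Dl_comp (k : ℕ) (g : Fin (k + 1) → ℕ → B) (h : ℕ → B) (h1 : h 0 = 1) :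
    Dl k (fun i => comp p (g i) h) = Dl k g := by
  let T : Matrix (Fin (k + 1)) (Fin (k + 1)) B :=
    Matrix.of fun a j => if a ≤ j then h (j - a : ℕ) ^ p ^ (a : ℕ) else 0
  have hT : T.det = 1 := by
    rw [Matrix.det_of_isUpperTriangular]
    · refine prod_eq_one fun a _ => ?_
      simp [T, h1]
    · intro a j haj
      simp only [T, Matrix.of_apply]
      rw [if_neg (by simpa using haj)]
  have hM : (Matrix.of fun i (j : Fin (k + 1)) => comp p (g i) h (j : ℕ)) =
      (Matrix.of fun i (j : Fin (k + 1)) => g i (j : ℕ)) * T := by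
    ext i j
    rw [Matrix.mul_apply, Matrix.of_apply, comp]
    rw [Nat.sum_antidiagonal_eq_sum_range_succ_mk]
    simp only [Matrix.of_apply, T, mul_ite, mul_zero, Fin.le_def]
    rw [Fin.sum_univ_eq_sum_range (fun a => if a ≤ (j : ℕ) then g i a * h ((j : ℕ) - a) ^ p ^ a
      else 0) (k + 1)]
    rw [← sum_filter]
    refine sum_congr ?_ fun _ _ => rfl
    ext a
    simp only [mem_range, mem_filter]
    have := j.isLt
    omega
  rw [Dl, hM, Matrix.det_mul, hT, mul_one]
  rfl

end Vale.Agent.P257.H134
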