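import Vale.Agent.P257.H93.Yon
import Vale.Agent.P257.H134.Det

/-!
# Explicit cochains in `CobP`

`hP i j = [t_i^{p^j}]` and `bP i j`, with their exact coboundaries, in evaluated form.
-/

noncomputable section

namespace Vale.Agent.P257.H134

open Vale.Agent.P251.F Vale.Agent.P251.F.F3 Vale.Agent.P217 Vale.Agent.P257.H93 Finset

variable {p : ℕ}

theorem charP_of_fpA [hp : Fact p.Prime] (B : Type) [CommRing B] [h : FpA p B] [Nontrivial B] :
    CharP B p := by
  have h1 : ringChar B ∣ p := (ringChar.spec B p).1 h.cast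
  rcases (Nat.dvd_prime hp.out).1 h1 with h2 | h2
  · exact absurd h2 (CharP.ringChar_ne_one)
  · rw [← h2]
    exact ringChar.charP B

/-- the coefficients of the `k`-th automorphism of a homogeneous chain -/
def sq {B : Type} [CommRing B] [FpA p B] (g : ℕ → addS B) (k : ℕ) (i : ℕ) : B :=
  tc p i (((g k * (g (k + 1))⁻¹ : addS B) : strict B) : InvSeries B)

/-- the coefficients of an element -/
def co {B : Type} [CommRing B] [FpA p B] (g : addS B) (i : ℕ) : B :=
  tc p i ((g : strict B) : InvSeries B)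

/-- the generic coefficients, with `tt 0 = 1` -/
def tt (p n : ℕ) (k : Fin n) : ℕ → CobP p n
  | 0 => 1
  | i + 1 => MvPolynomial.X (k, i)

theorem tt_zero (n : ℕ) (k : Fin n) : tt p n k 0 = 1 := rfl

section
variable {B : Type} [CommRing B] [FpA p B]

theorem co_zero (g : addS B) : co (p := p) g 0 = 1 := tc_zero g.1.2

theorem evG_tt {n : ℕ} (g : ℕ → addS B) (k : Fin n) (i : ℕ) :
    evG n g (tt p n k i) = co (p := p) (g k * (g (k + 1))⁻¹) i := by
  cases i with
  | zero => rw [tt, map_one, co_zero]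
  | succ i => rw [tt, evG_X, co]

variable [hp : Fact p.Prime]

theorem co_mul (f g : addS B) :
    co (p := p) (f * g) = comp p (co (p := p) f) (co (p := p) g) := by
  funext n
  rw [co, Subgroup.coe_mul, Subgroup.coe_mul, tc_mul (isAdd_val f), comp,
    Nat.sum_antidiagonal_eq_sum_range_succ_mk]
  rfl

/-- `[t_i^{p^j}]` -/
def hP (p i j : ℕ) : CobP p 1 := tt p 1 0 i ^ p ^ j

/-- the cochain `b_{ij}` -/
def bP (p : ℕ) [Fact p.Prime] (i j : ℕ) : CobP p 2 := bb p j (tt p 2 0) (tt p 2 1) i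

omit hp in
theorem evG_hP (g : ℕ → addS B) (i j : ℕ) :
    evG 1 g (hP p i j) = co (p := p) (g 0 * (g 1)⁻¹) i ^ p ^ j := by
  rw [hP, map_pow, evG_tt]
  rfl

theorem evG_bP (g : ℕ → addS B) (i j : ℕ) :
    evG 2 g (bP p i j) =
      bb p j (co (p := p) (g 0 * (g 1)⁻¹)) (co (p := p) (g 1 * (g 2)⁻¹)) i := by
  rw [bP, bb, map_gam, bb]
  refine gam_congr p rfl fun ab _ => ?_
  rw [map_mul, map_pow, map_pow, evG_tt, evG_tt]
  rfl

theorem evG_dP {n : ℕ} (g : ℕ → addS B) (z : CobP p n) :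
    evG (n + 1) g (dP n z) = ∑ j ∈ range (n + 2), ((-1 : ℤ) ^ j) • evG n (del j g) z := by
  rw [dP_apply, map_sum]
  refine sum_congr rfl fun j _ => ?_
  rw [map_zsmul, evG_dl]

/-- inner indices -/
def inn (i : ℕ) : Finset ℕ := Ioo 0 i

omit hp in
theorem sum_antidiagonal_inn {M : Type*} [AddCommMonoid M] (i : ℕ) (hi : 0 < i) (f : ℕ → ℕ → M) :
    ∑ x ∈ antidiagonal i, f x.1 x.2 = f 0 i + f i 0 + ∑ a ∈ Ioo 0 i, f a (i - a) := by
  rw [Nat.sum_antidiagonal_eq_sum_range_succ f, sum_range_succ, Nat.sub_self, range_eq_Ico,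
    Ico_eq_cons_Ioo hi, sum_cons, Nat.sub_zero]
  rw [add_right_comm]

/-- exact coboundary of `h_{ij}`, evaluated -/
theorem evG_d_hP (g : ℕ → addS B) (i j : ℕ) (hi : 0 < i) :
    evG 2 g (dP 1 (hP p i j)) = - ∑ a ∈ Ioo 0 i,
      co (p := p) (g 0 * (g 1)⁻¹) a ^ p ^ j *
        co (p := p) (g 1 * (g 2)⁻¹) (i - a) ^ p ^ (a + j) := by
  rcases subsingleton_or_nontrivial B with hB | hB
  · exact Subsingleton.elim _ _
  have := charP_of_fpA (p := p) B
  rw [evG_dP, sum_range_succ, sum_range_succ, sum_range_one]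
  rw [evG_hP, evG_hP, evG_hP]
  have e0 : ∀ k, del 0 g k = g (k + 1) := fun k => by simp [del]
  have e10 : del 1 g 0 = g 0 := by simp [del]
  have e11 : del 1 g 1 = g 2 := by simp [del]
  have e20 : del 2 g 0 = g 0 := by simp [del]
  have e21 : del 2 g 1 = g 1 := by simp [del]
  rw [e0, e0, e10, e11, show (1 + 1 : ℕ) = 2 from rfl, e20, e21, zero_add]
  have h1 : g 0 * (g 2)⁻¹ = (g 0 * (g 1)⁻¹) * (g 1 * (g 2)⁻¹) := by group
  rw [h1, co_mul (g 0 * (g 1)⁻¹), comp_pow, sum_antidiagonal_inn i hi fun a b =>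
    co (p := p) (g 0 * (g 1)⁻¹) a ^ p ^ j * co (p := p) (g 1 * (g 2)⁻¹) b ^ p ^ (a + j)]
  simp only [co_zero, one_pow, mul_one, one_mul, zero_add]
  simp only [pow_zero, pow_one, one_smul, neg_smul, even_two, Even.neg_pow, one_pow]
  ring

/-- exact coboundary of `b_{ij}`, evaluated -/
theorem evG_d_bP (g : ℕ → addS B) (i j : ℕ) (hi : 0 < i) :
    evG 3 g (dP 2 (bP p i j)) = ∑ a ∈ Ioo 0 i,
      (bb p j (co (p := p) (g 0 * (g 1)⁻¹)) (co (p := p) (g 1 * (g 2)⁻¹)) a *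
          co (p := p) (g 2 * (g 3)⁻¹) (i - a) ^ p ^ (a + j + 1) -
        co (p := p) (g 0 * (g 1)⁻¹) a ^ p ^ (j + 1) *
          bb p (a + j) (co (p := p) (g 1 * (g 2)⁻¹)) (co (p := p) (g 2 * (g 3)⁻¹)) (i - a)) := by
  rcases subsingleton_or_nontrivial B with hB | hB
  · exact Subsingleton.elim _ _
  have := charP_of_fpA (p := p) B
  rw [evG_dP, sum_range_succ, sum_range_succ, sum_range_succ, sum_range_one]
  rw [evG_bP, evG_bP, evG_bP, evG_bP]
  have e0 : ∀ k, del 0 g k = g (k + 1) := fun k => by simp [del]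
  have e10 : del 1 g 0 = g 0 := by simp [del]
  have e11 : del 1 g 1 = g 2 := by simp [del]
  have e12 : del 1 g 2 = g 3 := by simp [del]
  have e20 : del 2 g 0 = g 0 := by simp [del]
  have e21 : del 2 g 1 = g 1 := by simp [del]
  have e22 : del 2 g 2 = g 3 := by simp [del]
  have e30 : del 3 g 0 = g 0 := by simp [del]
  have e31 : del 3 g 1 = g 1 := by simp [del]
  have e32 : del 3 g 2 = g 2 := by simp [del]
  rw [e0, e0, e0, e10, e11, e12, show (1 + 1 : ℕ) = 2 from rfl, e20, e21, e22,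
    show (2 + 1 : ℕ) = 3 from rfl, e30, e31, e32, zero_add]
  have h1 : g 0 * (g 2)⁻¹ = (g 0 * (g 1)⁻¹) * (g 1 * (g 2)⁻¹) := by group
  have h2 : g 1 * (g 3)⁻¹ = (g 1 * (g 2)⁻¹) * (g 2 * (g 3)⁻¹) := by group
  rw [h1, h2, co_mul (g 0 * (g 1)⁻¹), co_mul (g 1 * (g 2)⁻¹) (g 2 * (g 3)⁻¹)]
  set a := co (p := p) (g 0 * (g 1)⁻¹) with ha
  set b := co (p := p) (g 1 * (g 2)⁻¹) with hb
  set c := co (p := p) (g 2 * (g 3)⁻¹) with hc
  have ha0 : a 0 = 1 := co_zero _
  have hb0 : b 0 = 1 := co_zero _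
  have hc0 : c 0 = 1 := co_zero _
  have hbb0 : ∀ (j : ℕ) (x y : ℕ → B), bb p j x y 0 = 0 := fun j x y => by
    rw [bb, Nat.antidiagonal_zero, gam_singleton]
  have key := bb_cocycle p j a b c i
  rw [sum_antidiagonal_inn i hi fun n m => bb p j a b n * c m ^ p ^ (n + j + 1),
    sum_antidiagonal_inn i hi fun n m => a n ^ p ^ (j + 1) * bb p (n + j) b c m] at key
  simp only [hbb0, ha0, hc0, one_pow, mul_one, one_mul, zero_mul, mul_zero, zero_add, add_zero]
    at key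
  simp only [pow_zero, pow_one, one_smul, neg_smul, even_two, Even.neg_pow, one_pow]
  rw [sum_sub_distrib]
  have h3 : (-1 : ℤ) ^ 3 = -1 := by norm_num
  rw [h3]
  simp only [neg_smul, one_smul]
  linear_combination -key

end

end Vale.Agent.P257.H134
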