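import Vale.Agent.P257.H134.Symb
import Vale.Agent.P257.H134.Cochains

/-!
# P257 (helper134): the leading symbol of the cochains `bP`

`-bP p (i + 1) j` has level `p * μ (i, j)` and leading symbol `∑_{0<a<p} γ_a(v) | γ_{p-a}(v)` with
`v = (i, j)`.
-/

noncomputable section

namespace Vale.Agent.P257.H134

open MvPolynomial Vale.Agent.P257.H93 Vale.Agent.P257.H632

section Agr

variable {σ R : Type*} [CommRing R] {w : σ → ℕ}

theorem Agr.one : Agr w 0 (1 : MvPolynomial σ R) 1 := by
  simpa using Agr.C (w := w) (1 : R)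

theorem Agr.pow {m : ℕ} {a b : MvPolynomial σ R} (h : Agr w m a b) (k : ℕ) :
    Agr w (k * m) (a ^ k) (b ^ k) := by
  induction k with
  | zero => simpa using Agr.one
  | succ k ih =>
    rw [pow_succ, pow_succ, add_mul, one_mul]
    exact ih.mul h

theorem Agr.natCast (n : ℕ) : Agr w 0 (n : MvPolynomial σ R) n := by
  rw [← map_natCast (MvPolynomial.C : R →+* MvPolynomial σ R)]
  exact Agr.C _

theorem Agr.of_lower {m : ℕ} {a : MvPolynomial σ R} (ha : ∀ c, m ≤ lv w c → coeff c a = 0) :
    Agr w m a 0 := fun c hc => ⟨by rw [ha c hc, coeff_zero], fun _ => ha c hc⟩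

theorem Agr.cp (p : ℕ) {m : ℕ} {a b a' b' : MvPolynomial σ R} (h : Agr w m a b)
    (h' : Agr w m a' b') : Agr w (p * m) (cp p a a') (cp p b b') := by
  unfold Vale.Agent.P257.H134.cp
  refine Agr.sum fun k hk => ?_
  rw [Finset.mem_Ioo] at hk
  have h1 := (Agr.natCast (w := w) (R := R) (p.choose k / p)).mul ((h.pow k).mul (h'.pow (p - k)))
  rw [← add_mul, show k + (p - k) = p by omega, zero_add] at h1
  exact h1

theorem Agr.gam (p : ℕ) [hp : Fact p.Prime] {m : ℕ} {ι : Type*} {s : Finset ι}
    {a b : ι → MvPolynomial σ R} (h : ∀ i ∈ s, Agr w m (a i) (b i)) :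
    Agr w (p * m) (gam p s a) (gam p s b) := by
  classical
  induction s using Finset.induction_on with
  | empty => rw [gam_empty, gam_empty]; exact Agr.zero _
  | insert i s hi ih =>
    rw [gam_insert p hi, gam_insert p hi]
    exact (ih fun j hj => h j (Finset.mem_insert_of_mem hj)).add
      (Agr.cp p (h i (Finset.mem_insert_self i s))
        (Agr.sum fun j hj => h j (Finset.mem_insert_of_mem hj)))

end Agr

variable {p : ℕ} [hp : Fact p.Prime] {μ : ℕ × ℕ → ℕ}

/-- digit letters with the convention `t_0 = 1` -/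
def YY (p n : ℕ) (k : Fin n) : ℕ → ℕ → CobD p n
  | 0, _ => 1
  | i + 1, s => X (k, (i, s))

omit hp in
theorem YY_zero (n : ℕ) (k : Fin n) (s : ℕ) : YY p n k 0 s = 1 := rfl
omit hp in
theorem YY_succ (n : ℕ) (k : Fin n) (i s : ℕ) : YY p n k (i + 1) s = X (k, (i, s)) := rfl

theorem piD_YY (n : ℕ) (k : Fin n) (i s : ℕ) : piD p n (YY p n k i s) = tt p n k i ^ p ^ s := by
  cases i with
  | zero => rw [YY, map_one, tt, one_pow]
  | succ i => rw [YY, piD_X, tt]

/-- the lift of `bP` to digit letters -/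
def bD (p : ℕ) [Fact p.Prime] (i j : ℕ) : CobD p 2 :=
  gam p (Finset.HasAntidiagonal.antidiagonal (i + 1)) fun ab => YY p 2 0 ab.1 j * YY p 2 1 ab.2 (ab.1 + j)

theorem piD_bD (i j : ℕ) : piD p 2 (bD p i j) = bP p (i + 1) j := by
  rw [bD, map_gam, bP, bb]
  refine gam_congr p rfl fun ab _ => ?_
  rw [map_mul, piD_YY, piD_YY]

theorem agr_bD (hμ : IsMu p μ) (i j : ℕ) :
    Agr (fun u : Fin 2 × (ℕ × ℕ) => μ u.2) (p * μ (i, j)) (bD p i j)
      (cp p (X (0, (i, j))) (X (1, (i, j)))) := by
  classical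
  let y : ℕ × ℕ → CobD p 2 := fun ab =>
    if ab = (i + 1, 0) then X (0, (i, j)) else if ab = (0, i + 1) then X (1, (i, j)) else 0
  have h1 : Agr (fun u : Fin 2 × (ℕ × ℕ) => μ u.2) (p * μ (i, j)) (bD p i j)
      (gam p (Finset.HasAntidiagonal.antidiagonal (i + 1)) y) := by
    refine Agr.gam p fun ab hab => ?_
    rw [Finset.HasAntidiagonal.mem_antidiagonal] at hab
    obtain ⟨a, b⟩ := ab
    simp only at hab
    simp only [y]
    split_ifs with h1 h2
    · obtain ⟨rfl, rfl⟩ := Prod.mk.inj h1
      rw [YY_zero, mul_one, YY_succ]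
      exact Agr.X (w := fun u : Fin 2 × (ℕ × ℕ) => μ u.2) (0, (i, j))
    · obtain ⟨rfl, rfl⟩ := Prod.mk.inj h2
      rw [YY_zero, one_mul, YY_succ, zero_add]
      exact Agr.X (w := fun u : Fin 2 × (ℕ × ℕ) => μ u.2) (1, (i, j))
    · rcases a with _ | a
      · exact absurd (by rw [← hab, zero_add]) h2
      rcases b with _ | b
      · exact absurd (by rw [← hab, add_zero]) h1
      rw [YY_succ, YY_succ]
      apply Agr.of_lower
      intro c hc
      rw [X, X, monomial_mul]
      refine coeff_eq_zero_of_lv (w := fun u : Fin 2 × (ℕ × ℕ) => μ u.2) (m := μ (i, j)) ?_ c hc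
      rw [lv_add, lv_single, lv_single, one_mul, one_mul]
      have := hμ.split i j a (by omega)
      simp only
      rwa [show i - (a + 1) = b by omega, show j + (a + 1) = a + 1 + j by ring] at this
  have h2 : gam p (Finset.HasAntidiagonal.antidiagonal (i + 1)) y = cp p (X (0, (i, j))) (X (1, (i, j))) := by
    have hne : ((i + 1, 0) : ℕ × ℕ) ≠ (0, i + 1) := by simp
    have hsub : ({(i + 1, 0), (0, i + 1)} : Finset (ℕ × ℕ)) ⊆ Finset.HasAntidiagonal.antidiagonal (i + 1) := by
      intro ab hab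
      rw [Finset.mem_insert, Finset.mem_singleton] at hab
      rw [Finset.HasAntidiagonal.mem_antidiagonal]
      rcases hab with rfl | rfl <;> simp
    rw [gam_subset p hsub y, gam_pair p hne]
    · simp only [y]
      rw [if_pos trivial, if_neg hne.symm, if_pos trivial]
    · intro ab _ hab
      rw [Finset.mem_insert, Finset.mem_singleton, not_or] at hab
      simp only [y]
      rw [if_neg hab.1, if_neg hab.2]
  rwa [h2] at h1

/-- `(binom p k / p) * k! * (p - k)! = (p - 1)! = -1` -/
theorem choose_div_mul {k : ℕ} (h0 : 0 < k) (hk : k < p) :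
    ((p.choose k / p : ℕ) : ZMod p) * ((k.factorial * (p - k).factorial : ℕ) : ZMod p) = -1 := by
  have h1 : p.choose k / p * (k.factorial * (p - k).factorial) = (p - 1).factorial := by
    obtain ⟨m, hm⟩ : p ∣ p.choose k := hp.out.dvd_choose_self (by omega) hk
    rw [hm, Nat.mul_div_cancel_left _ hp.out.pos]
    have h2 := Nat.choose_mul_factorial_mul_factorial hk.le
    rw [hm] at h2
    have h3 : p.factorial = p * (p - 1).factorial := (Nat.mul_factorial_pred hp.out.ne_zero).symm
    rw [h3] at h2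
    apply Nat.eq_of_mul_eq_mul_left hp.out.pos
    rw [← h2]
    ring
  rw [← Nat.cast_mul, h1]
  exact ZMod.wilsons_lemma p

open Classical in
theorem La_cp (v : ℕ × ℕ) (c : Fin 2 × (ℕ × ℕ) →₀ ℕ) :
    La c (cp p (X (0, v)) (X (1, v)) : CobD p 2) =
      if ∃ a, 0 < a ∧ a < p ∧ c = Finsupp.single (0, v) a + Finsupp.single (1, v) (p - a)
        then -1 else 0 := by
  classical
  have hne : ((0 : Fin 2), v) ≠ (1, v) := by simp
  have h1 : ∀ k : ℕ, coeff c (X (0, v) ^ k * X (1, v) ^ (p - k) : CobD p 2) =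
      if c = Finsupp.single (0, v) k + Finsupp.single (1, v) (p - k) then 1 else 0 := by
    intro k
    rw [X_pow_eq_monomial, X_pow_eq_monomial, monomial_mul, coeff_monomial, one_mul]
    by_cases h : c = Finsupp.single (0, v) k + Finsupp.single (1, v) (p - k)
    · rw [if_pos h, if_pos h.symm]
    · rw [if_neg h, if_neg (Ne.symm h)]
  have h2 : coeff c (cp p (X (0, v)) (X (1, v)) : CobD p 2) = ∑ k ∈ Finset.Ioo 0 p,
      if c = Finsupp.single (0, v) k + Finsupp.single (1, v) (p - k) then
        ((p.choose k / p : ℕ) : ZMod p) else 0 := by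
    rw [cp, coeff_sum]
    refine Finset.sum_congr rfl fun k _ => ?_
    rw [← map_natCast (C : ZMod p →+* CobD p 2), coeff_C_mul, h1, mul_ite, mul_one, mul_zero]
  rw [La, h2]
  split_ifs with h
  · obtain ⟨a, ha0, ha, hc⟩ := h
    rw [Finset.sum_eq_single a]
    · rw [if_pos hc]
      have h3 : fct c = a.factorial * (p - a).factorial := by
        rw [fct_eq c (0, v), hc]
        have h4 : ((Finsupp.single ((0 : Fin 2), v) a + Finsupp.single (1, v) (p - a)).erase (0, v))
            = Finsupp.single (1, v) (p - a) := by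
          ext t
          by_cases ht : t = (0, v)
          · subst ht
            rw [Finsupp.erase_same, Finsupp.single_eq_of_ne hne]
          · rw [Finsupp.erase_ne ht, Finsupp.add_apply, Finsupp.single_eq_of_ne ht, zero_add]
        rw [h4, Finsupp.add_apply, Finsupp.single_eq_same, Finsupp.single_eq_of_ne hne, add_zero, fct,
          Finsupp.prod_single_index (by simp)]
      rw [h3, mul_comm]
      exact choose_div_mul ha0 ha
    · intro k hk hka
      rw [if_neg]
      intro h5
      apply hka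
      have h6 := DFunLike.congr_fun (hc.symm.trans h5) (0, v)
      rw [Finsupp.add_apply, Finsupp.add_apply, Finsupp.single_eq_same, Finsupp.single_eq_same,
        Finsupp.single_eq_of_ne hne, Finsupp.single_eq_of_ne hne] at h6
      omega
    · intro h5
      exact absurd (Finset.mem_Ioo.2 ⟨ha0, ha⟩) h5
  · rw [Finset.sum_eq_zero, mul_zero]
    intro k hk
    rw [Finset.mem_Ioo] at hk
    rw [if_neg]
    intro h5
    exact h ⟨k, hk.1, hk.2, h5⟩

theorem toD_two_eq_iff (v : ℕ × ℕ) (a b : ℕ) {l : List Ex} (hl : l.length = 2) :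
    toD 2 l = Finsupp.single (0, v) a + Finsupp.single (1, v) b ↔
      l = [Finsupp.single v a, Finsupp.single v b] := by
  classical
  obtain ⟨x, y, rfl⟩ : ∃ x y, l = [x, y] := by
    rcases l with _ | ⟨x, _ | ⟨y, _ | ⟨z, l⟩⟩⟩
    · simp at hl
    · simp at hl
    · exact ⟨x, y, rfl⟩
    · simp at hl
  have e : ∀ (k k' : Fin 2) (v' : ℕ × ℕ) (n : ℕ), (Finsupp.single (k', v) n) (k, v') =
      if k = k' then (Finsupp.single v n) v' else 0 := by
    intro k k' v' n
    rw [Finsupp.single_apply, Finsupp.single_apply]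
    by_cases h1 : k = k'
    · subst h1
      simp
    · rw [if_neg h1, if_neg]
      intro h2
      exact h1 (congrArg Prod.fst h2).symm
  constructor
  · intro h
    have hx : x = Finsupp.single v a := by
      ext v'
      have := DFunLike.congr_fun h (0, v')
      rw [toD_apply, Finsupp.add_apply, e, e] at this
      simpa using this
    have hy : y = Finsupp.single v b := by
      ext v'
      have := DFunLike.congr_fun h (1, v')
      rw [toD_apply, Finsupp.add_apply, e, e] at this
      simpa using this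
    rw [hx, hy]
  · intro h
    obtain ⟨hx, hy⟩ : x = Finsupp.single v a ∧ y = Finsupp.single v b := by simpa using h
    subst hx hy
    ext ⟨k, v'⟩
    rw [toD_apply, Finsupp.add_apply, e, e]
    fin_cases k <;> simp

open Classical in
theorem symb_bP (hμ : IsMu p μ) (i j : ℕ) {l : List Ex} (hl : l.length = 2)
    (hm : p * μ (i, j) ≤ lev μ l) :
    symb 2 (bP p (i + 1) j) l = if ∃ a, 0 < a ∧ a < p ∧
      l = [Finsupp.single (i, j) a, Finsupp.single (i, j) (p - a)] then -1 else 0 := by
  classical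
  have hA := agr_bD (p := p) hμ i j
  rw [← piD_bD, symb_piD hμ.frob (fun c hc => (hA c hc.le).2 hc) hl hm]
  have h1 : La (toD 2 l) (bD p i j) = La (toD 2 l) (cp p (X (0, (i, j))) (X (1, (i, j)))) := by
    rw [La, La, (hA _ (by rw [lv_toD μ hl]; exact hm)).1]
  rw [h1, La_cp]
  simp only [toD_two_eq_iff (i, j) _ _ hl]

theorem symb_of_length {n : ℕ} (z : CobP p n) {l : List Ex} (h : l.length ≠ n) :
    symb n z l = 0 := by
  rw [symb, if_neg]
  exact fun h' => h h'.1

theorem lev_pair (v : ℕ × ℕ) (a b : ℕ) :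
    lev μ [Finsupp.single v a, Finsupp.single v b] = (a + b) * μ v := by
  simp [lev, add_mul]

/-- `-bP` has level `p * μ v` -/
theorem neg_bP_mem (hμ : IsMu p μ) (i j : ℕ) : -bP p (i + 1) j ∈ Fil μ 2 (p * μ (i, j) + 1) := by
  rw [Submodule.neg_mem_iff]
  intro l hl
  by_cases h : l.length = 2
  · rw [symb_bP hμ i j h (by omega), if_neg]
    rintro ⟨a, ha0, ha, rfl⟩
    rw [lev_pair, show a + (p - a) = p by omega] at hl
    omega
  · exact symb_of_length _ h

open Classical in
/-- the leading symbol of `-bP` -/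
theorem symb_neg_bP (hμ : IsMu p μ) (i j : ℕ) {l : List Ex} (hl : lev μ l = p * μ (i, j)) :
    symb 2 (-bP p (i + 1) j) l = if ∃ a, 0 < a ∧ a < p ∧
      l = [Finsupp.single (i, j) a, Finsupp.single (i, j) (p - a)] then 1 else 0 := by
  classical
  have hneg : symb 2 (-bP p (i + 1) j) l = -symb 2 (bP p (i + 1) j) l := by
    rw [← neg_one_smul (ZMod p), symb_smul, neg_one_mul]
  rw [hneg]
  by_cases h : l.length = 2
  · rw [symb_bP hμ i j h hl.ge]
    split_ifs <;> simp
  · rw [symb_of_length _ h, if_neg, neg_zero]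
    rintro ⟨a, _, _, rfl⟩
    exact h rfl

end Vale.Agent.P257.H134

end
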