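import Vale.Agent.P257.H134.Cochains

/-!
# The determinant cocycle in `CobP`
-/

noncomputable section

namespace Vale.Agent.P257.H134

open Vale.Agent.P251.F Vale.Agent.P251.F.F3 Vale.Agent.P217 Vale.Agent.P257.H93 Finset

variable {p : ℕ} [hp : Fact p.Prime]

/-- the cocycle `det (1, t_1(g_i), …, t_k(g_i))` -/
def DP (p : ℕ) [Fact p.Prime] (k : ℕ) : CobP p k :=
  Dl k fun i => co (p := p) (gU p k i * (gU p k k)⁻¹)

omit hp in
theorem map_co {B C : Type} [CommRing B] [CommRing C] [FpA p B] [FpA p C] (φ : B →+* C)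
    (g : addS B) (i : ℕ) : φ (co (p := p) g i) = co (p := p) (mapA φ g) i := by
  rw [co, co, val_mapA, map_tc]

theorem evG_DP {B : Type} [CommRing B] [FpA p B] (k : ℕ) (g : ℕ → addS B) :
    evG k g (DP p k) = Dl k fun i => co (p := p) (g i * (g k)⁻¹) := by
  rw [DP, Dl_map]
  congr 1
  funext i j
  rw [map_co, map_mul, map_inv, map_gU g (Nat.le_of_lt_succ i.2), map_gU g le_rfl]
  congr 1
  group

theorem dP_DP (k : ℕ) : dP k (DP p k) = 0 := by
  apply ext_evG
  intro B _ _ g
  rw [evG_dP, map_zero]
  have h : ∀ j ∈ range (k + 2), evG (p := p) k (del j g) (DP p k) =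
      Dl k fun i => co (p := p) (del j g i * (g (k + 1))⁻¹) := by
    intro j hj
    rw [mem_range] at hj
    rw [evG_DP]
    by_cases hjk : j ≤ k
    · have : del j g k = g (k + 1) := by
        simp only [del]; rw [if_neg (by omega)]
      rw [this]
    · have hk : del j g k = g k := by
        simp only [del]; rw [if_pos (by omega)]
      rw [hk]
      have h2 : (fun i : Fin (k + 1) => co (p := p) (del j g i * (g (k + 1))⁻¹)) =
          fun i : Fin (k + 1) => comp p (co (p := p) (del j g i * (g k)⁻¹))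
            (co (p := p) (g k * (g (k + 1))⁻¹)) := by
        funext i
        rw [← co_mul]
        congr 1
        group
      rw [h2, Dl_comp p k _ _ (co_zero _)]
  rw [sum_congr rfl fun j hj => by rw [h j hj]]
  have h3 := Dl_cocycle k (fun i : Fin (k + 2) => co (p := p) (g i * (g (k + 1))⁻¹))
    (fun i => co_zero _)
  rw [← h3, ← Fin.sum_univ_eq_sum_range (fun j => (-1 : ℤ) ^ j •
    Dl k fun i : Fin (k + 1) => co (p := p) (del j g i * (g (k + 1))⁻¹))]
  refine sum_congr rfl fun j _ => ?_
  rw [zsmul_eq_mul]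
  push_cast
  congr 2
  funext i
  congr 2
  simp only [del, Fin.succAbove, Fin.lt_def, Fin.val_castSucc]
  split_ifs <;> rfl

end Vale.Agent.P257.H134
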