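import Mathlib

/-!
# P257 (helper134): levels of polynomials in digit letters

* `La c G` : the coefficient of `G` in the divided power basis; sending a variable to the sum of
  the variables of its fibre is dual to `Finsupp.mapDomain`.
* `Agr w m a b` : `a` and `b` have level `≤ m` and the same part of level `m`.
* `lv_le_of_val_eq` : base `p` digits have the smallest level (carries lower the level).
-/

noncomputable section

namespace Vale.Agent.P257.H134

open MvPolynomial

section Lam

variable {σ τ R : Type*} [CommSemiring R]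

/-- product of the factorials of the exponents -/
def fct (c : σ →₀ ℕ) : ℕ := c.prod fun _ a => a.factorial

theorem fct_eq (c : σ →₀ ℕ) (u : σ) :
    fct c = (c u).factorial * fct (c.erase u) := by
  classical
  unfold fct
  rw [Finsupp.mul_prod_erase' c u (fun _ a => a.factorial) (fun _ => rfl)]

theorem fct_add_single (c : σ →₀ ℕ) (u : σ) :
    fct (c + Finsupp.single u 1) = (c u + 1) * fct c := by
  classical
  have h : (c + Finsupp.single u 1).erase u = c.erase u := by
    ext t
    by_cases ht : t = u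
    · subst ht; simp
    · rw [Finsupp.erase_ne ht, Finsupp.erase_ne ht, Finsupp.add_apply, Finsupp.single_apply,
        if_neg (Ne.symm ht), add_zero]
  rw [fct_eq c u, fct_eq (c + Finsupp.single u 1) u, h, Finsupp.add_apply,
    Finsupp.single_eq_same, Nat.factorial_succ]
  ring

@[simp] theorem fct_zero : fct (0 : σ →₀ ℕ) = 1 := by simp [fct]

/-- the coefficient with respect to divided powers -/
def La (c : σ →₀ ℕ) (G : MvPolynomial σ R) : R := (fct c : R) * coeff c G

theorem La_add (c : σ →₀ ℕ) (G H : MvPolynomial σ R) : La c (G + H) = La c G + La c H := by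
  rw [La, coeff_add, mul_add]; rfl

theorem La_sum {ι : Type*} (c : σ →₀ ℕ) (s : Finset ι) (G : ι → MvPolynomial σ R) :
    La c (∑ i ∈ s, G i) = ∑ i ∈ s, La c (G i) := by
  rw [La, coeff_sum, Finset.mul_sum]; rfl

theorem La_C [DecidableEq σ] (c : σ →₀ ℕ) (a : R) :
    La c (C a : MvPolynomial σ R) = if c = 0 then a else 0 := by
  classical
  rw [La, coeff_C]
  by_cases h : c = 0
  · subst h; simp
  · rw [if_neg (Ne.symm h), if_neg h, mul_zero]

theorem La_mul_X (c : σ →₀ ℕ) (u : σ) (G : MvPolynomial σ R) :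
    La c (G * X u) = (c u : R) * La (c - Finsupp.single u 1) G := by
  classical
  by_cases h : c u = 0
  · rw [La, coeff_mul_X', if_neg (by simp [h]), h]; simp
  · have h1 : c = (c - Finsupp.single u 1) + Finsupp.single u 1 := by
      ext t
      by_cases ht : t = u
      · subst ht; simp; omega
      · simp [Ne.symm ht]
    have h2 : fct c = c u * fct (c - Finsupp.single u 1) := by
      conv_lhs => rw [h1, fct_add_single]
      congr 1
      rw [Finsupp.tsub_apply, Finsupp.single_eq_same]
      omega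
    rw [La, coeff_mul_X', if_pos (by simp [h]), h2, La, Nat.cast_mul, mul_assoc]

theorem mapDomain_fib [DecidableEq σ] (f : τ → σ) (fib : σ → Finset τ)
    (hfib : ∀ u t, t ∈ fib u ↔ f t = u) (c : τ →₀ ℕ) (u : σ) :
    (c.mapDomain f) u = ∑ t ∈ fib u, c t := by
  classical
  rw [Finsupp.mapDomain, Finsupp.sum_apply, Finsupp.sum]
  simp only [Finsupp.single_apply]
  rw [← Finset.sum_filter]
  apply Finset.sum_subset_zero_on_sdiff
  · intro t ht
    rw [Finset.mem_filter] at ht
    exact (hfib u t).2 ht.2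
  · intro t ht
    rw [Finset.mem_sdiff, Finset.mem_filter, hfib] at ht
    by_contra h
    exact ht.2 ⟨by simpa using h, ht.1⟩
  · intro _ _; rfl

/-- Duality between `Y_u ↦ ∑_{f t = u} Y_t` and `mapDomain`. -/
theorem La_hom [DecidableEq σ] (f : τ → σ) (fib : σ → Finset τ) (hfib : ∀ u t, t ∈ fib u ↔ f t = u)
    (δ : MvPolynomial σ R →+* MvPolynomial τ R) (hC : ∀ r, δ (C r) = C r)
    (hX : ∀ u, δ (X u) = ∑ t ∈ fib u, X t) (c : τ →₀ ℕ) (G : MvPolynomial σ R) :
    La c (δ G) = La (c.mapDomain f) G := by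
  classical
  have hmap0 : ∀ c : τ →₀ ℕ, c.mapDomain f = 0 ↔ c = 0 := by
    intro c
    constructor
    · intro h
      ext t
      by_contra ht
      have h1 : (c.mapDomain f) (f t) = 0 := by rw [h]; rfl
      rw [Finsupp.mapDomain, Finsupp.sum_apply, Finsupp.sum, Finset.sum_eq_zero_iff] at h1
      have := h1 t (by simpa using ht)
      rw [Finsupp.single_eq_same] at this
      exact ht this
    · rintro rfl; exact Finsupp.mapDomain_zero
  have hval := mapDomain_fib f fib hfib
  induction G using MvPolynomial.induction_on generalizing c with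
  | C a =>
    rw [hC, La_C, La_C]
    simp only [hmap0]
  | add G H hG hH => rw [map_add, La_add, La_add, hG, hH]
  | mul_X G u hG =>
    rw [map_mul, hX, Finset.mul_sum, La_sum, La_mul_X, hval, Nat.cast_sum, Finset.sum_mul]
    refine Finset.sum_congr rfl fun t ht => ?_
    rw [La_mul_X, hG]
    rw [hfib] at ht
    by_cases h : c t = 0
    · rw [h, Nat.cast_zero, zero_mul, zero_mul]
    · congr 2
      have h1 : c = (c - Finsupp.single t 1) + Finsupp.single t 1 := by
        ext s
        by_cases hs : s = t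
        · subst hs; simp; omega
        · simp [Ne.symm hs]
      conv_rhs => rw [h1, Finsupp.mapDomain_add, Finsupp.mapDomain_single, ht,
        add_tsub_cancel_right]

end Lam

section Agr

variable {σ τ R : Type*} [CommSemiring R]

/-- the level of an exponent -/
def lv (w : σ → ℕ) (c : σ →₀ ℕ) : ℕ := c.sum fun u a => a * w u

@[simp] theorem lv_zero (w : σ → ℕ) : lv w 0 = 0 := by simp [lv]

theorem lv_add (w : σ → ℕ) (c c' : σ →₀ ℕ) : lv w (c + c') = lv w c + lv w c' := by
  classical
  unfold lv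
  rw [Finsupp.sum_add_index']
  · intro u; exact zero_mul _
  · intro u a b; exact add_mul _ _ _

theorem lv_single (w : σ → ℕ) (u : σ) (a : ℕ) : lv w (Finsupp.single u a) = a * w u := by
  unfold lv
  rw [Finsupp.sum_single_index (by rw [zero_mul])]

/-- `a` and `b` have level `≤ m` and the same part of level `m` -/
def Agr (w : σ → ℕ) (m : ℕ) (a b : MvPolynomial σ R) : Prop :=
  ∀ c, m ≤ lv w c → coeff c a = coeff c b ∧ (m < lv w c → coeff c a = 0)

variable {w : σ → ℕ}

theorem Agr.add {m : ℕ} {a b a' b' : MvPolynomial σ R} (h : Agr w m a b) (h' : Agr w m a' b') :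
    Agr w m (a + a') (b + b') := fun c hc =>
  ⟨by rw [coeff_add, coeff_add, (h c hc).1, (h' c hc).1],
    fun hc' => by rw [coeff_add, (h c hc).2 hc', (h' c hc).2 hc', add_zero]⟩

theorem Agr.zero (m : ℕ) : Agr w m (0 : MvPolynomial σ R) 0 := fun _ _ =>
  ⟨rfl, fun _ => coeff_zero _⟩

theorem Agr.sum {ι : Type*} {m : ℕ} {s : Finset ι} {a b : ι → MvPolynomial σ R}
    (h : ∀ i ∈ s, Agr w m (a i) (b i)) : Agr w m (∑ i ∈ s, a i) (∑ i ∈ s, b i) := by
  classical
  induction s using Finset.induction_on with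
  | empty => simpa using Agr.zero m
  | insert i s hi ih =>
    rw [Finset.sum_insert hi, Finset.sum_insert hi]
    exact (h i (Finset.mem_insert_self i s)).add
      (ih fun j hj => h j (Finset.mem_insert_of_mem hj))

theorem Agr.mul {m m' : ℕ} {a b a' b' : MvPolynomial σ R} (h : Agr w m a b)
    (h' : Agr w m' a' b') : Agr w (m + m') (a * a') (b * b') := by
  classical
  have hb : ∀ c, m < lv w c → coeff c b = 0 := fun c hc => by
    rw [← (h c hc.le).1, (h c hc.le).2 hc]
  have hb' : ∀ c, m' < lv w c → coeff c b' = 0 := fun c hc => by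
    rw [← (h' c hc.le).1, (h' c hc.le).2 hc]
  intro c hc
  constructor
  · rw [coeff_mul, coeff_mul]
    refine Finset.sum_congr rfl fun x hx => ?_
    have hx' := Finset.HasAntidiagonal.mem_antidiagonal.1 hx
    have hl : lv w x.1 + lv w x.2 = lv w c := by rw [← lv_add, hx']
    rcases lt_or_ge m (lv w x.1) with h1 | h1
    · rw [(h _ h1.le).2 h1, hb _ h1, zero_mul, zero_mul]
    · rcases lt_or_ge m' (lv w x.2) with h2 | h2
      · rw [(h' _ h2.le).2 h2, hb' _ h2, mul_zero, mul_zero]
      · rw [(h x.1 (by omega)).1, (h' x.2 (by omega)).1]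
  · intro hc'
    rw [coeff_mul]
    refine Finset.sum_eq_zero fun x hx => ?_
    have hx' := Finset.HasAntidiagonal.mem_antidiagonal.1 hx
    have hl : lv w x.1 + lv w x.2 = lv w c := by rw [← lv_add, hx']
    rcases lt_or_ge m (lv w x.1) with h1 | h1
    · rw [(h _ h1.le).2 h1, zero_mul]
    · rw [(h' x.2 (by omega)).2 (by omega), mul_zero]

theorem Agr.mono {m m' : ℕ} {a b : MvPolynomial σ R} (h : Agr w m a b) (hm : m ≤ m') :
    Agr w m' a b := fun c hc =>
  ⟨(h c (hm.trans hc)).1, fun hc' => (h c (hm.trans hc)).2 (lt_of_le_of_lt hm hc')⟩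

/-- an element of smaller level does not matter -/
theorem Agr.add_lower {m : ℕ} {a b x : MvPolynomial σ R} (h : Agr w m a b)
    (hx : ∀ c, m ≤ lv w c → coeff c x = 0) : Agr w m (a + x) b := fun c hc =>
  ⟨by rw [coeff_add, hx c hc, add_zero, (h c hc).1],
    fun hc' => by rw [coeff_add, hx c hc, add_zero, (h c hc).2 hc']⟩

theorem Agr.C (r : R) : Agr w 0 (C r : MvPolynomial σ R) (C r) := by
  classical
  intro c _
  refine ⟨rfl, fun hc => ?_⟩
  rw [coeff_C, if_neg]
  rintro rfl
  simp at hc

theorem Agr.X (u : σ) : Agr w (w u) (X u : MvPolynomial σ R) (X u) := by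
  classical
  intro c _
  refine ⟨rfl, fun hc => ?_⟩
  rw [coeff_X, if_neg]
  rintro rfl
  rw [lv_single, one_mul] at hc
  exact lt_irrefl _ hc

theorem coeff_eq_zero_of_lv {c₀ : σ →₀ ℕ} {r : R} {m : ℕ} (h : lv w c₀ < m) (c : σ →₀ ℕ)
    (hc : m ≤ lv w c) : coeff c (monomial c₀ r) = 0 := by
  classical
  rw [coeff_monomial, if_neg]
  rintro rfl
  omega

/-- two ring homs which agree to leading order on the variables -/
theorem Agr.hom {w' : τ → ℕ} (f g : MvPolynomial σ R →+* MvPolynomial τ R)
    (hf : ∀ r, f (MvPolynomial.C r) = MvPolynomial.C r)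
    (hg : ∀ r, g (MvPolynomial.C r) = MvPolynomial.C r)
    (hX : ∀ u, Agr w' (w u) (f (MvPolynomial.X u)) (g (MvPolynomial.X u)))
    {m : ℕ} {G : MvPolynomial σ R} (hG : ∀ c, m < lv w c → coeff c G = 0) :
    Agr w' m (f G) (g G) := by
  classical
  have hmon : ∀ (c : σ →₀ ℕ) (r : R), Agr w' (lv w c) (f (monomial c r)) (g (monomial c r)) := by
    intro c
    induction c using Finsupp.induction_linear with
    | zero =>
      intro r
      rw [lv_zero]
      change Agr w' 0 (f (MvPolynomial.C r)) (g (MvPolynomial.C r))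
      rw [hf, hg]
      exact Agr.C r
    | add c c' h h' =>
      intro r
      rw [lv_add, ← mul_one r, ← monomial_mul, map_mul, map_mul]
      exact (h r).mul (h' 1)
    | single u a =>
      intro r
      rw [lv_single]
      induction a with
      | zero =>
        rw [zero_mul, Finsupp.single_zero]
        change Agr w' 0 (f (MvPolynomial.C r)) (g (MvPolynomial.C r))
        rw [hf, hg]
        exact Agr.C r
      | succ a ih =>
        rw [Finsupp.single_add, ← mul_one r, ← monomial_mul, map_mul, map_mul, add_mul, one_mul]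
        exact ih.mul (hX u)
  rw [G.as_sum, map_sum, map_sum]
  refine Agr.sum fun c hc => (hmon c _).mono ?_
  by_contra h
  exact (mem_support_iff.1 hc) (hG c (by omega))

end Agr

section Carry

/-- uniqueness of base `p` digits -/
theorem dig_unique {p : ℕ} (hp : 0 < p) : ∀ (N : ℕ) (g g' : ℕ → ℕ), (∀ j, g j < p) →
    (∀ j, g' j < p) → ∑ j ∈ Finset.range N, g j * p ^ j = ∑ j ∈ Finset.range N, g' j * p ^ j →
    ∀ j < N, g j = g' j := by
  intro N
  induction N with
  | zero => intro g g' _ _ _ j hj; omega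
  | succ N ih =>
    intro g g' hg hg' h j hj
    rw [Finset.sum_range_succ', Finset.sum_range_succ', pow_zero, mul_one, mul_one] at h
    have key : ∀ f : ℕ → ℕ, ∑ j ∈ Finset.range N, f (j + 1) * p ^ (j + 1) =
        p * ∑ j ∈ Finset.range N, f (j + 1) * p ^ j := by
      intro f
      rw [Finset.mul_sum]
      exact Finset.sum_congr rfl fun j _ => by rw [pow_succ]; ring
    rw [key, key] at h
    have h0 : g 0 = g' 0 := by
      have := congrArg (· % p) h
      simp only [Nat.mul_add_mod] at this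
      rwa [Nat.mod_eq_of_lt (hg 0), Nat.mod_eq_of_lt (hg' 0)] at this
    have h1 : ∑ j ∈ Finset.range N, g (j + 1) * p ^ j = ∑ j ∈ Finset.range N, g' (j + 1) * p ^ j := by
      rw [h0] at h
      exact Nat.eq_of_mul_eq_mul_left hp (Nat.add_right_cancel h)
    rcases j with _ | j
    · exact h0
    · exact ih (fun j => g (j + 1)) (fun j => g' (j + 1)) (fun j => hg _) (fun j => hg' _) h1 j
        (by omega)

variable {K : Type*}

/-- the exponent of a monomial in digit letters -/
def val (p : ℕ) (c : K × (ℕ × ℕ) →₀ ℕ) : K × ℕ →₀ ℕ :=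
  c.sum fun u a => Finsupp.single (u.1, u.2.1) (a * p ^ u.2.2)

theorem val_add (p : ℕ) (c c' : K × (ℕ × ℕ) →₀ ℕ) : val p (c + c') = val p c + val p c' := by
  classical
  unfold val
  rw [Finsupp.sum_add_index']
  · intro u; rw [zero_mul, Finsupp.single_zero]
  · intro u a b; rw [add_mul, Finsupp.single_add]

@[simp] theorem val_zero (p : ℕ) : val p (0 : K × (ℕ × ℕ) →₀ ℕ) = 0 := by simp [val]

theorem val_single (p : ℕ) (u : K × (ℕ × ℕ)) (a : ℕ) :
    val p (Finsupp.single u a) = Finsupp.single (u.1, u.2.1) (a * p ^ u.2.2) := by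
  unfold val
  rw [Finsupp.sum_single_index (by rw [zero_mul, Finsupp.single_zero])]

theorem val_apply (p : ℕ) (c : K × (ℕ × ℕ) →₀ ℕ) {N : ℕ} (hN : ∀ u ∈ c.support, u.2.2 < N)
    (k : K) (i : ℕ) : val p c (k, i) = ∑ j ∈ Finset.range N, c (k, (i, j)) * p ^ j := by
  classical
  have h1 : ∑ j ∈ Finset.range N, c (k, (i, j)) * p ^ j =
      ∑ u ∈ (Finset.range N).image (fun j => (k, (i, j))), c u * p ^ u.2.2 := by
    rw [Finset.sum_image]
    intro a _ b _ h
    simpa using h
  rw [h1, val, Finsupp.sum_apply, Finsupp.sum]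
  simp only [Finsupp.single_apply]
  rw [← Finset.sum_filter]
  apply Finset.sum_subset
  · intro u hu
    rw [Finset.mem_filter] at hu
    rw [Finset.mem_image]
    refine ⟨u.2.2, Finset.mem_range.2 (hN u hu.1), ?_⟩
    obtain ⟨u1, u2, u3⟩ := u
    have := hu.2
    simp only [Prod.mk.injEq] at this
    rw [this.1, this.2]
  · intro u hu hu'
    rw [Finset.mem_image] at hu
    obtain ⟨j, _, rfl⟩ := hu
    by_contra h
    apply hu'
    rw [Finset.mem_filter]
    refine ⟨?_, rfl⟩
    rw [Finsupp.mem_support_iff]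
    intro h0
    exact h (by rw [h0, zero_mul])

theorem val_inj {p : ℕ} (hp : 0 < p) {c r : K × (ℕ × ℕ) →₀ ℕ} (hc : ∀ u, c u < p)
    (hr : ∀ u, r u < p) (h : val p c = val p r) : c = r := by
  classical
  obtain ⟨N, hN⟩ : ∃ N, ∀ u ∈ c.support ∪ r.support, u.2.2 < N := by
    refine ⟨((c.support ∪ r.support).sup fun u => u.2.2) + 1, fun u hu => ?_⟩
    exact Nat.lt_succ_of_le (Finset.le_sup (f := fun u : K × (ℕ × ℕ) => u.2.2) hu)
  ext ⟨k, i, j⟩
  have h1 := DFunLike.congr_fun h (k, i)
  by_cases hj : j < N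
  · rw [val_apply p c (fun u hu => hN u (Finset.mem_union_left _ hu)),
      val_apply p r (fun u hu => hN u (Finset.mem_union_right _ hu))] at h1
    exact dig_unique hp N (fun j => c (k, (i, j))) (fun j => r (k, (i, j))) (fun _ => hc _)
      (fun _ => hr _) h1 j hj
  · have h2 : ∀ c' : K × (ℕ × ℕ) →₀ ℕ, (∀ u ∈ c'.support, u.2.2 < N) → c' (k, (i, j)) = 0 := by
      intro c' hc'
      by_contra h0
      exact hj (hc' _ (Finsupp.mem_support_iff.2 h0))
    rw [h2 c (fun u hu => hN u (Finset.mem_union_left _ hu)),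
      h2 r (fun u hu => hN u (Finset.mem_union_right _ hu))]

/-- one carry -/
theorem exists_carry {p : ℕ} (hp : 2 ≤ p) {c : K × (ℕ × ℕ) →₀ ℕ} (h : ¬ ∀ u, c u < p) :
    ∃ c', val p c' = val p c ∧ lv (fun _ => 1) c' < lv (fun _ => 1) c ∧
      ∀ μ : ℕ × ℕ → ℕ, (∀ i j, μ (i, j + 1) < p * μ (i, j)) →
        lv (fun u => μ u.2) c' < lv (fun u => μ u.2) c := by
  classical
  push Not at h
  obtain ⟨⟨k, i, j⟩, hu⟩ := h
  have hc : c = (c - Finsupp.single (k, (i, j)) p) + Finsupp.single (k, (i, j)) p := by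
    rw [tsub_add_cancel_of_le]
    rw [Finsupp.single_le_iff]
    exact hu
  refine ⟨(c - Finsupp.single (k, (i, j)) p) + Finsupp.single (k, (i, j + 1)) 1, ?_, ?_, ?_⟩
  · conv_rhs => rw [hc]
    rw [val_add, val_add, val_single, val_single]
    congr 2
    rw [pow_succ]; ring
  · conv_rhs => rw [hc]
    rw [lv_add, lv_add, lv_single, lv_single]
    omega
  · intro μ hμ
    conv_rhs => rw [hc]
    rw [lv_add, lv_add, lv_single, lv_single]
    have := hμ i j
    simp only
    omega

/-- base `p` digits have the smallest level -/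
theorem lv_le_of_val_eq {p : ℕ} (hp : 2 ≤ p) {μ : ℕ × ℕ → ℕ}
    (hμ : ∀ i j, μ (i, j + 1) < p * μ (i, j)) {r : K × (ℕ × ℕ) →₀ ℕ} (hr : ∀ u, r u < p) :
    ∀ c : K × (ℕ × ℕ) →₀ ℕ, val p c = val p r →
      lv (fun u => μ u.2) r ≤ lv (fun u => μ u.2) c ∧
        (lv (fun u => μ u.2) r = lv (fun u => μ u.2) c → c = r) := by
  intro c
  induction h : lv (fun _ => 1) c using Nat.strong_induction_on generalizing c with
  | _ d ih =>
    intro hv
    by_cases hc : ∀ u, c u < p
    · have := val_inj (by omega) hc hr hv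
      subst this
      exact ⟨le_rfl, fun _ => rfl⟩
    · obtain ⟨c', h1, h2, h3⟩ := exists_carry hp hc
      have h4 := ih _ (h ▸ h2) c' rfl (h1.trans hv)
      have h5 := h3 μ hμ
      exact ⟨by omega, fun h6 => by omega⟩

/-- existence of digits -/
theorem exists_red {p : ℕ} (hp : 2 ≤ p) : ∀ c : K × (ℕ × ℕ) →₀ ℕ,
    ∃ r : K × (ℕ × ℕ) →₀ ℕ, (∀ u, r u < p) ∧ val p r = val p c := by
  intro c
  induction h : lv (fun _ => 1) c using Nat.strong_induction_on generalizing c with
  | _ d ih =>
    by_cases hc : ∀ u, c u < p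
    · exact ⟨c, hc, rfl⟩
    · obtain ⟨c', h1, h2, _⟩ := exists_carry hp hc
      obtain ⟨r, h3, h4⟩ := ih _ (h ▸ h2) c' rfl
      exact ⟨r, h3, h4.trans h1⟩

/-- every exponent has base `p` digits -/
theorem exists_dig {p : ℕ} (hp : 2 ≤ p) (e : K × ℕ →₀ ℕ) :
    ∃ r : K × (ℕ × ℕ) →₀ ℕ, (∀ u, r u < p) ∧ val p r = e := by
  classical
  have h : ∃ c : K × (ℕ × ℕ) →₀ ℕ, val p c = e := by
    induction e using Finsupp.induction_linear with
    | zero => exact ⟨0, val_zero p⟩
    | add e e' h h' =>
      obtain ⟨c, rfl⟩ := h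
      obtain ⟨c', rfl⟩ := h'
      exact ⟨c + c', val_add p c c'⟩
    | single ki a =>
      refine ⟨Finsupp.single (ki.1, (ki.2, 0)) a, ?_⟩
      rw [val_single, pow_zero, mul_one]
  obtain ⟨c, rfl⟩ := h
  exact exists_red hp c

end Carry

end Vale.Agent.P257.H134

end
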