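import Vale.Agent.P257.H134.Lev
import Vale.Agent.P257.H632.Defs

/-!
# P257 (helper134): the leading part of the differential of `CobP p n`
-/

set_option linter.unusedSectionVars false

noncomputable section

namespace Vale.Agent.P257.H134

open MvPolynomial Vale.Agent.P257.H93 Vale.Agent.P257.H632

/-! ### faces of word cochains -/

section Faces

variable {I : Type} [DecidableEq I] [HasOrd I] {M : Type} [AddCommGroup M]

/-- faces of word cochains -/
def fc : ℕ → (List (I →₀ ℕ) → M) → List (I →₀ ℕ) → M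
  | _, _, [] => 0
  | 0, f, y :: l => if y = 0 then f l else 0
  | _ + 1, f, [y] => if y = 0 then f [] else 0
  | 1, f, y :: m :: l => f ((y + m) :: l)
  | j + 2, f, y :: m :: l => fc (j + 1) (fun l' => f (y :: l')) (m :: l)

/-- merging the letters `j - 1` and `j` -/
def mrg : ℕ → List (I →₀ ℕ) → List (I →₀ ℕ)
  | 1, y :: m :: l => (y + m) :: l
  | j + 2, y :: l => y :: mrg (j + 1) l
  | _, l => l

theorem dC_eq (l : List (I →₀ ℕ)) : ∀ (f : List (I →₀ ℕ) → M),
    dC l f = ∑ j ∈ Finset.range l.length, ((-1 : ℤ) ^ j) • fc (j + 1) f l := by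
  induction l with
  | nil => intro f; simp [dC]
  | cons y l ih =>
    intro f
    cases l with
    | nil => simp [dC, fc]
    | cons m l =>
      have hR : ∑ j ∈ Finset.range (y :: m :: l).length, ((-1 : ℤ) ^ j) • fc (j + 1) f (y :: m :: l)
          = ∑ j ∈ Finset.range (m :: l).length, ((-1 : ℤ) ^ (j + 1)) • fc (j + 1 + 1) f (y :: m :: l)
            + ((-1 : ℤ) ^ 0) • fc (0 + 1) f (y :: m :: l) := Finset.sum_range_succ' _ _
      rw [hR, dC, ih, sub_eq_add_neg, add_comm, ← Finset.sum_neg_distrib]
      congr 1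
      · refine Finset.sum_congr rfl fun j _ => ?_
        rw [fc, pow_succ, mul_neg_one, neg_smul]
      · rw [pow_zero, one_smul, fc]

theorem dK_eq (f : List (I →₀ ℕ) → M) {l : List (I →₀ ℕ)} {n : ℕ} (hl : l.length = n + 1) :
    dK f l = ∑ j ∈ Finset.range (n + 2), ((-1 : ℤ) ^ j) • fc j f l := by
  cases l with
  | nil => simp at hl
  | cons y l =>
    rw [dK, dC_eq, hl, Finset.sum_range_succ' _ (n + 1), sub_eq_add_neg, add_comm,
      ← Finset.sum_neg_distrib]
    congr 1
    · refine Finset.sum_congr rfl fun j _ => ?_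
      rw [pow_succ, mul_neg_one, neg_smul]
    · rw [pow_zero, one_smul, fc]

theorem fc_mid : ∀ (j : ℕ) (f : List (I →₀ ℕ) → M) (l : List (I →₀ ℕ)), 1 ≤ j → j < l.length →
    fc j f l = f (mrg j l) := by
  intro j
  induction j with
  | zero => intro f l h; omega
  | succ j ih =>
    intro f l _ hl
    rcases l with _ | ⟨y, _ | ⟨m, l⟩⟩
    · simp at hl
    · simp at hl
    · rcases j with _ | j
      · rw [fc, mrg]
      · rw [fc, mrg, ih (fun l' => f (y :: l')) (m :: l) (by omega) (by simpa using hl)]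

theorem fc_last : ∀ (l : List (I →₀ ℕ)) (f : List (I →₀ ℕ) → M) (y : I →₀ ℕ),
    fc (l.length + 1) f (l ++ [y]) = if y = 0 then f l else 0 := by
  intro l
  induction l with
  | nil => intro f y; simp [fc]
  | cons m l ih =>
    intro f y
    rw [List.length_cons, List.cons_append]
    rcases l with _ | ⟨m', l⟩
    · simp [fc]
    · rw [List.cons_append, fc]
      exact ih (fun l' => f (m :: l')) y

theorem mrg_length : ∀ (j : ℕ) (l : List (I →₀ ℕ)), 1 ≤ j → j < l.length →
    (mrg j l).length = l.length - 1 := by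
  intro j
  induction j with
  | zero => intro l h; omega
  | succ j ih =>
    intro l _ hl
    rcases l with _ | ⟨y, _ | ⟨m, l⟩⟩
    · simp at hl
    · simp at hl
    · rcases j with _ | j
      · simp [mrg]
      · rw [mrg, List.length_cons, ih (m :: l) (by omega) (by simpa using hl)]
        simp

theorem mrg_getD : ∀ (j : ℕ) (l : List (I →₀ ℕ)), 1 ≤ j → j < l.length → ∀ k,
    (mrg j l).getD k 0 = if k + 1 < j then l.getD k 0 else
      if k + 1 = j then l.getD k 0 + l.getD (k + 1) 0 else l.getD (k + 1) 0 := by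
  intro j
  induction j with
  | zero => intro l h; omega
  | succ j ih =>
    intro l _ hl k
    rcases l with _ | ⟨y, _ | ⟨m, l⟩⟩
    · simp at hl
    · simp at hl
    · rcases j with _ | j
      · rw [mrg]
        rcases k with _ | k
        · simp
        · rw [if_neg (by omega), if_neg (by omega)]
          simp
      · rw [mrg]
        rcases k with _ | k
        · rw [if_pos (by omega)]; simp
        · have h1 := ih (m :: l) (by omega) (by simpa using hl) k
          rw [List.getD_cons_succ, h1]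
          simp only [List.getD_cons_succ]
          split_ifs <;> first | rfl | omega

end Faces

/-! ### words as exponents in digit letters -/

section Words

variable {p n : ℕ}

/-- the exponent in digit letters of a word -/
def toD (n : ℕ) (l : List Ex) : Fin n × (ℕ × ℕ) →₀ ℕ :=
  ∑ k : Fin n, (l.getD k 0).mapDomain (Prod.mk k)

theorem toD_apply (l : List Ex) (k : Fin n) (v : ℕ × ℕ) : toD n l (k, v) = l.getD k 0 v := by
  classical
  rw [toD, Finsupp.finsetSum_apply, Finset.sum_eq_single k]
  · rw [Finsupp.mapDomain_apply (fun a b h => by simpa using h)]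
  · intro b _ hb
    rw [Finsupp.mapDomain_of_notMem_range]
    rintro ⟨x, hx⟩
    exact hb (congrArg Prod.fst hx)
  · intro h; exact absurd (Finset.mem_univ k) h

theorem sum_getD {M : Type*} [AddCommMonoid M] (F : Ex → M) : ∀ {n : ℕ} {l : List Ex},
    l.length = n → ∑ k : Fin n, F (l.getD k 0) = (l.map F).sum := by
  intro n
  induction n with
  | zero =>
    intro l hl
    rw [List.length_eq_zero_iff] at hl
    subst hl; simp
  | succ n ih =>
    intro l hl
    rcases l with _ | ⟨y, l⟩
    · simp at hl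
    · rw [Fin.sum_univ_succ, List.map_cons, List.sum_cons, ← ih (l := l) (by simpa using hl)]
      congr 1

theorem prod_getD {M : Type*} [CommMonoid M] (F : Ex → M) : ∀ {n : ℕ} {l : List Ex},
    l.length = n → ∏ k : Fin n, F (l.getD k 0) = (l.map F).prod := by
  intro n
  induction n with
  | zero =>
    intro l hl
    rw [List.length_eq_zero_iff] at hl
    subst hl; simp
  | succ n ih =>
    intro l hl
    rcases l with _ | ⟨y, l⟩
    · simp at hl
    · rw [Fin.prod_univ_succ, List.map_cons, List.prod_cons, ← ih (l := l) (by simpa using hl)]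
      congr 1

theorem val_sum {K ι : Type*} (p : ℕ) (s : Finset ι) (c : ι → K × (ℕ × ℕ) →₀ ℕ) :
    val p (∑ i ∈ s, c i) = ∑ i ∈ s, val p (c i) := by
  classical
  induction s using Finset.induction_on with
  | empty => simp
  | insert i s hi ih => rw [Finset.sum_insert hi, Finset.sum_insert hi, val_add, ih]

theorem lv_sum {σ ι : Type*} (w : σ → ℕ) (s : Finset ι) (c : ι → σ →₀ ℕ) :
    lv w (∑ i ∈ s, c i) = ∑ i ∈ s, lv w (c i) := by
  classical
  induction s using Finset.induction_on with
  | empty => simp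
  | insert i s hi ih => rw [Finset.sum_insert hi, Finset.sum_insert hi, lv_add, ih]

theorem val_toD (p : ℕ) (l : List Ex) : val p (toD n l) = toE p n l := by
  classical
  rw [toD, val_sum, toE]
  refine Finset.sum_congr rfl fun k _ => ?_
  rw [val, Finsupp.sum_mapDomain_index]
  · intro u; rw [zero_mul, Finsupp.single_zero]
  · intro u a b; rw [add_mul, Finsupp.single_add]

theorem lv_toD (μ : ℕ × ℕ → ℕ) {l : List Ex} (hl : l.length = n) :
    lv (fun u => μ u.2) (toD n l) = lev μ l := by
  classical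
  rw [toD, lv_sum, lev, ← sum_getD (fun m => m.sum fun v c => c * μ v) hl]
  refine Finset.sum_congr rfl fun k _ => ?_
  rw [lv, Finsupp.sum_mapDomain_index]
  · intro u; rw [zero_mul]
  · intro u a b; rw [add_mul]

theorem fct_toD {l : List Ex} (hl : l.length = n) : fct (toD n l) = fac l := by
  classical
  rw [fac, ← prod_getD (fun m => m.prod fun _ c => c.factorial) hl]
  have hS : (toD n l).support ⊆ Finset.univ ×ˢ (Finset.univ.biUnion fun k : Fin n =>
      (l.getD k 0).support) := by
    rintro ⟨k, v⟩ h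
    rw [Finsupp.mem_support_iff, toD_apply] at h
    rw [Finset.mem_product, Finset.mem_biUnion]
    exact ⟨Finset.mem_univ _, k, Finset.mem_univ _, Finsupp.mem_support_iff.2 h⟩
  rw [fct, Finsupp.prod_of_support_subset _ hS _ (fun _ _ => rfl), Finset.prod_product]
  refine Finset.prod_congr rfl fun k _ => ?_
  rw [Finsupp.prod_of_support_subset (l.getD k 0) (s := Finset.univ.biUnion fun k : Fin n =>
      (l.getD k 0).support) _ _ (fun _ _ => rfl)]
  · refine Finset.prod_congr rfl fun v _ => ?_
    rw [toD_apply]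
  · intro v hv
    rw [Finset.mem_biUnion]
    exact ⟨k, Finset.mem_univ _, hv⟩

theorem red_iff {l : List Ex} (hl : l.length = n) : Red p l ↔ ∀ u, toD n l u < p := by
  constructor
  · rintro h ⟨k, v⟩
    rw [toD_apply]
    have hk : (k : ℕ) < l.length := by rw [hl]; exact k.2
    rw [List.getD_eq_getElem _ _ hk]
    exact h _ (List.getElem_mem hk) v
  · intro h m hm v
    obtain ⟨k, hk, rfl⟩ := List.getElem_of_mem hm
    have h1 := h (⟨k, by omega⟩, v)
    rw [toD_apply] at h1
    rwa [List.getD_eq_getElem _ _ hk] at h1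

/-- every exponent is the exponent of a word -/
theorem exists_list (c : Fin n × (ℕ × ℕ) →₀ ℕ) : ∃ l : List Ex, l.length = n ∧ toD n l = c := by
  classical
  refine ⟨List.ofFn fun k : Fin n => c.comapDomain (Prod.mk k) (by
    intro a _ b _ h; simpa using h), List.length_ofFn, ?_⟩
  ext ⟨k, v⟩
  rw [toD_apply, List.getD_eq_getElem _ _ (by simp), List.getElem_ofFn]
  exact Finsupp.comapDomain_apply _ _ _ _

theorem fct_ne_zero [hp : Fact p.Prime] {σ : Type*} {c : σ →₀ ℕ} (h : ∀ u, c u < p) :
    (fct c : ZMod p) ≠ 0 := by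
  rw [Ne, ZMod.natCast_eq_zero_iff, fct, Finsupp.prod, (Nat.Prime.prime hp.out).dvd_finsetProd_iff]
  rintro ⟨u, _, h'⟩
  rw [Nat.Prime.dvd_factorial hp.out] at h'
  have := h u
  omega

theorem fct_eq_zero [hp : Fact p.Prime] {σ : Type*} {c : σ →₀ ℕ} (h : ¬ ∀ u, c u < p) :
    (fct c : ZMod p) = 0 := by
  push Not at h
  obtain ⟨u, hu⟩ := h
  rw [ZMod.natCast_eq_zero_iff, fct, Finsupp.prod, (Nat.Prime.prime hp.out).dvd_finsetProd_iff]
  refine ⟨u, ?_, (Nat.Prime.dvd_factorial hp.out).2 hu⟩
  rw [Finsupp.mem_support_iff]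
  have := hp.out.pos
  omega

end Words

/-! ### polynomials in digit letters -/

section Pi

variable {p n : ℕ} [hp : Fact p.Prime] {μ : ℕ × ℕ → ℕ}

/-- polynomials in digit letters -/
abbrev CobD (p n : ℕ) : Type := MvPolynomial (Fin n × (ℕ × ℕ)) (ZMod p)

/-- a digit letter as a power of a variable -/
def piD (p n : ℕ) : CobD p n →+* CobP p n :=
  eval₂Hom C fun u => X (u.1, u.2.1) ^ (p ^ u.2.2)

theorem piD_C (r : ZMod p) : piD p n (C r) = C r := by simp [piD]

theorem piD_X (u : Fin n × (ℕ × ℕ)) : piD p n (X u) = X (u.1, u.2.1) ^ (p ^ u.2.2) := by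
  simp [piD]

theorem piD_monomial (c : Fin n × (ℕ × ℕ) →₀ ℕ) : ∀ a : ZMod p,
    piD p n (monomial c a) = monomial (val p c) a := by
  classical
  induction c using Finsupp.induction_linear with
  | zero =>
    intro a
    rw [val_zero]
    exact piD_C a
  | add c c' h h' =>
    intro a
    rw [← mul_one a, ← monomial_mul, map_mul, h, h', monomial_mul, val_add]
  | single u b =>
    intro a
    rw [val_single, ← mul_one a, ← C_mul_monomial, map_mul, piD_C, ← C_mul_monomial]
    congr 1
    rw [show (monomial (Finsupp.single u b) (1 : ZMod p)) = X u ^ b from (X_pow_eq_monomial).symm,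
      map_pow, piD_X, ← pow_mul, X_pow_eq_monomial, mul_comm]

/-- Lemma K: coefficients of the image in `CobP`, at the top level. -/
theorem coeff_piD (hμ : ∀ i j, μ (i, j + 1) < p * μ (i, j)) {m : ℕ} {F : CobD p n}
    (hF : ∀ c, m < lv (fun u => μ u.2) c → coeff c F = 0) {r : Fin n × (ℕ × ℕ) →₀ ℕ}
    (hr : ∀ u, r u < p) (hm : m ≤ lv (fun u => μ u.2) r) :
    coeff (val p r) (piD p n F) = coeff r F := by
  classical
  conv_lhs => rw [F.as_sum, map_sum, coeff_sum]
  have h1 : ∀ c ∈ F.support, coeff (val p r) (piD p n (monomial c (coeff c F))) =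
      if c = r then coeff c F else 0 := by
    intro c hc
    rw [piD_monomial, coeff_monomial]
    have h2 : lv (fun u => μ u.2) c ≤ m := by
      by_contra h
      exact mem_support_iff.1 hc (hF c (by omega))
    by_cases h : c = r
    · subst h; simp
    · rw [if_neg h, if_neg]
      intro h3
      have h4 := lv_le_of_val_eq hp.out.two_le hμ hr c h3
      exact h (h4.2 (by omega))
  rw [Finset.sum_congr rfl h1, Finset.sum_ite_eq']
  split_ifs with h
  · rfl
  · exact (notMem_support_iff.1 h).symm

/-- the lift of a cochain of level `≤ m` -/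
theorem exists_lift {z : CobP p n} {m : ℕ} (hz : z ∈ Fil μ n (m + 1)) :
    ∃ F : CobD p n, piD p n F = z ∧ ∀ c, m < lv (fun u => μ u.2) c → coeff c F = 0 := by
  classical
  choose dg hdg hdg' using fun e : Fin n × ℕ →₀ ℕ => exists_dig (p := p) hp.out.two_le e
  refine ⟨∑ e ∈ z.support, monomial (dg e) (coeff e z), ?_, ?_⟩
  · rw [map_sum]
    conv_rhs => rw [z.as_sum]
    refine Finset.sum_congr rfl fun e _ => ?_
    rw [piD_monomial, hdg']
  · intro c hc
    rw [coeff_sum]
    refine Finset.sum_eq_zero fun e he => ?_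
    rw [coeff_monomial, if_neg]
    rintro rfl
    obtain ⟨l, hl, hl'⟩ := exists_list (dg e)
    have h1 : symb n z l = 0 := by
      refine hz l ?_
      rw [← lv_toD μ hl, hl']
      exact hc
    rw [symb, if_pos ⟨hl, (red_iff hl).2 (by rw [hl']; exact hdg e)⟩, ← fct_toD hl, hl',
      ← val_toD, hl', hdg'] at h1
    rcases mul_eq_zero.1 h1 with h2 | h2
    · exact fct_ne_zero (hdg e) h2
    · exact mem_support_iff.1 he h2

/-- the symbol at the top level in terms of a lift -/
theorem symb_piD (hμ : ∀ i j, μ (i, j + 1) < p * μ (i, j)) {m : ℕ} {F : CobD p n}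
    (hF : ∀ c, m < lv (fun u => μ u.2) c → coeff c F = 0) {l : List Ex} (hl : l.length = n)
    (hm : m ≤ lev μ l) : symb n (piD p n F) l = La (toD n l) F := by
  rw [symb]
  split_ifs with h
  · rw [La, fct_toD hl, ← val_toD, coeff_piD hμ hF ((red_iff hl).1 h.2) (by rw [lv_toD μ hl]; exact hm)]
  · have h1 : ¬ ∀ u, toD n l u < p := fun h' => h ⟨hl, (red_iff hl).2 h'⟩
    rw [La, fct_eq_zero h1, zero_mul]

/-! ### the faces -/

/-- the faces on digit letters -/
def dlX (p n j : ℕ) (u : Fin n × (ℕ × ℕ)) : CobD p (n + 1) :=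
  if (u.1 : ℕ) + 1 < j then X (u.1.castSucc, u.2)
    else if (u.1 : ℕ) + 1 = j then
      X (u.1.succ, u.2) + X (u.1.castSucc, u.2) +
      ∑ a ∈ Finset.range u.2.1, X (u.1.castSucc, (a, u.2.2)) *
        X (u.1.succ, (u.2.1 - (a + 1), u.2.2 + (a + 1)))
    else X (u.1.succ, u.2)

/-- the faces, lifted to digit letters -/
def dlD (p n j : ℕ) : CobD p n →+* CobD p (n + 1) := eval₂Hom C (dlX p n j)

theorem piD_dlD (j : ℕ) (F : CobD p n) : piD p (n + 1) (dlD p n j F) = dl n j (piD p n F) := by
  have h : (piD p (n + 1)).comp (dlD p n j) = (dl n j).comp (piD p n) := by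
    apply ringHom_ext'
    · exact Subsingleton.elim _ _
    · rintro ⟨k, i, s⟩
      rw [RingHom.comp_apply, RingHom.comp_apply, piD_X, map_pow, dl_X, dlD, coe_eval₂Hom,
        eval₂_X, dlX]
      simp only
      split_ifs with h1 h2
      · rw [piD_X]
      · rw [map_add, map_add, map_sum, piD_X, piD_X, add_pow_char_pow, add_pow_char_pow,
          sum_pow_char_pow]
        congr 1
        refine Finset.sum_congr rfl fun a _ => ?_
        rw [map_mul, piD_X, piD_X, mul_pow, ← pow_mul, ← pow_add, add_comm s (a + 1)]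
      · rw [piD_X]
  exact DFunLike.congr_fun h F

end Pi

/-! ### leading part of a middle face -/

section Mid

variable {p n : ℕ} [hp : Fact p.Prime] {μ : ℕ × ℕ → ℕ}

/-- the map of positions merging `j - 1` and `j` -/
def mg (n j : ℕ) (h : 1 ≤ j ∧ j ≤ n) (k : Fin (n + 1) × (ℕ × ℕ)) : Fin n × (ℕ × ℕ) :=
  (⟨if (k.1 : ℕ) < j then k.1 else k.1 - 1, by have := k.1.2; split_ifs <;> omega⟩, k.2)

/-- its fibres -/
def fib (n j : ℕ) (u : Fin n × (ℕ × ℕ)) : Finset (Fin (n + 1) × (ℕ × ℕ)) :=
  if (u.1 : ℕ) + 1 < j then {(u.1.castSucc, u.2)}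
    else if (u.1 : ℕ) + 1 = j then {(u.1.succ, u.2), (u.1.castSucc, u.2)}
    else {(u.1.succ, u.2)}

theorem mem_fib {j : ℕ} (h : 1 ≤ j ∧ j ≤ n) (u : Fin n × (ℕ × ℕ))
    (t : Fin (n + 1) × (ℕ × ℕ)) : t ∈ fib n j u ↔ mg n j h t = u := by
  obtain ⟨k, v⟩ := u
  obtain ⟨k', v'⟩ := t
  have hk := k.2
  have hk' := k'.2
  have e1 : k' = k.castSucc ↔ (k' : ℕ) = k := by rw [Fin.ext_iff]; rfl
  have e2 : k' = k.succ ↔ (k' : ℕ) = k + 1 := by rw [Fin.ext_iff]; rfl
  have e3 : mg n j h (k', v') = (k, v) ↔
      (if (k' : ℕ) < j then (k' : ℕ) else k' - 1) = k ∧ v' = v := by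
    rw [mg, Prod.ext_iff, Fin.ext_iff]
  have e4 : (k', v') ∈ fib n j (k, v) ↔ (if (k : ℕ) + 1 < j then (k' : ℕ) = k else
      if (k : ℕ) + 1 = j then ((k' : ℕ) = k + 1 ∨ (k' : ℕ) = k) else (k' : ℕ) = k + 1) ∧ v' = v := by
    rw [fib]
    simp only
    split_ifs with h1 h2
    · rw [Finset.mem_singleton, Prod.ext_iff, e1]
    · have a1 : (k', v') = (k.succ, v) ↔ (k' : ℕ) = k + 1 ∧ v' = v := by rw [Prod.mk.injEq, e2]
      have a2 : (k', v') = (k.castSucc, v) ↔ (k' : ℕ) = k ∧ v' = v := by rw [Prod.mk.injEq, e1]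
      rw [Finset.mem_insert, Finset.mem_singleton, a1, a2]
      exact (or_and_right).symm
    · rw [Finset.mem_singleton, Prod.ext_iff, e2]
  rw [e3, e4]
  refine and_congr_left fun _ => ?_
  constructor
  · intro h1
    split_ifs at h1 ⊢ <;> omega
  · intro h1
    split_ifs at h1 ⊢ <;> omega

/-- the leading part of a middle face -/
def dlL (p n j : ℕ) : CobD p n →+* CobD p (n + 1) :=
  eval₂Hom C fun u => ∑ t ∈ fib n j u, X t

theorem agr_dlX (hμ : IsMu p μ) (j : ℕ) (u : Fin n × (ℕ × ℕ)) :
    Agr (fun u : Fin (n + 1) × (ℕ × ℕ) => μ u.2) (μ u.2) (dlX p n j u)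
      (∑ t ∈ fib n j u, X t) := by
  classical
  obtain ⟨k, i, s⟩ := u
  have hX : ∀ k' : Fin (n + 1), Agr (R := ZMod p) (fun u : Fin (n + 1) × (ℕ × ℕ) => μ u.2)
      (μ (i, s)) (X (k', (i, s))) (X (k', (i, s))) := fun k' =>
    Agr.X (w := fun u : Fin (n + 1) × (ℕ × ℕ) => μ u.2) (k', (i, s))
  simp only [dlX, fib]
  split_ifs with h1 h2
  · rw [Finset.sum_singleton]
    exact hX _
  · rw [Finset.sum_pair (by simp [Fin.ext_iff])]
    refine ((hX _).add (hX _)).add_lower ?_
    intro c hc
    rw [coeff_sum]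
    refine Finset.sum_eq_zero fun a ha => ?_
    rw [Finset.mem_range] at ha
    rw [X, X, monomial_mul]
    refine coeff_eq_zero_of_lv (w := fun u : Fin (n + 1) × (ℕ × ℕ) => μ u.2) (m := μ (i, s)) ?_ c hc
    rw [lv_add, lv_single, lv_single, one_mul, one_mul]
    exact hμ.split i s a ha
  · rw [Finset.sum_singleton]
    exact hX _

theorem mapDomain_toD {j : ℕ} (h : 1 ≤ j ∧ j ≤ n) {l : List Ex} (hl : l.length = n + 1) :
    (toD (n + 1) l).mapDomain (mg n j h) = toD n (mrg j l) := by
  classical
  ext ⟨k, v⟩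
  rw [mapDomain_fib (mg n j h) (fib n j) (mem_fib h), toD_apply, mrg_getD j l h.1 (by omega)]
  simp only [fib]
  split_ifs with h1 h2
  · rw [Finset.sum_singleton, toD_apply]; rfl
  · rw [Finset.sum_pair (by simp [Fin.ext_iff]), toD_apply, toD_apply, Finsupp.add_apply, add_comm]
    rfl
  · rw [Finset.sum_singleton, toD_apply]; rfl

theorem lev_mrg {j : ℕ} (h : 1 ≤ j ∧ j ≤ n) {l : List Ex} (hl : l.length = n + 1) :
    lev μ (mrg j l) = lev μ l := by
  classical
  rw [← lv_toD μ hl, ← lv_toD (n := n) μ (by rw [mrg_length j l h.1 (by omega)]; omega),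
    ← mapDomain_toD h hl, lv, Finsupp.sum_mapDomain_index]
  · rfl
  · intro u; rw [zero_mul]
  · intro u a b; rw [add_mul]

/-- the symbol of a middle face -/
theorem symb_dl_mid (hμ : IsMu p μ) {z : CobP p n} {m : ℕ} (hz : z ∈ Fil μ n (m + 1))
    {l : List Ex} (hl : m ≤ lev μ l) (hln : l.length = n + 1) {j : ℕ} (hj : 1 ≤ j ∧ j ≤ n) :
    symb (n + 1) (dl n j z) l = symb n z (mrg j l) := by
  classical
  obtain ⟨F, rfl, hF⟩ := exists_lift hz
  rw [← piD_dlD]
  have hA : Agr (fun u : Fin (n + 1) × (ℕ × ℕ) => μ u.2) m (dlD p n j F) (dlL p n j F) := by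
    refine Agr.hom (w := fun u : Fin n × (ℕ × ℕ) => μ u.2) (dlD p n j) (dlL p n j) ?_ ?_ ?_ hF
    · intro r; simp [dlD]
    · intro r; simp [dlL]
    · intro u
      rw [dlD, dlL, coe_eval₂Hom, coe_eval₂Hom, eval₂_X, eval₂_X]
      exact agr_dlX hμ j u
  rw [symb_piD hμ.frob (fun c hc => (hA c hc.le).2 hc) hln hl,
    symb_piD hμ.frob hF (by rw [mrg_length j l hj.1 (by omega)]; omega)
      (by rw [lev_mrg hj hln]; exact hl), ← mapDomain_toD hj hln,
    ← La_hom (mg n j hj) (fib n j) (mem_fib hj) (dlL p n j) (fun r => by simp [dlL])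
      (fun u => by rw [dlL, coe_eval₂Hom, eval₂_X]), La, La, (hA _ (by rw [lv_toD μ hln]; exact hl)).1]

end Mid

/-! ### the outer faces -/

section Outer

variable {p n : ℕ} [hp : Fact p.Prime]

theorem symb_dl_zero (z : CobP p n) {l : List Ex} (hl : l.length = n + 1) :
    symb (n + 1) (dl n 0 z) l = fc 0 (symb n z) l := by
  classical
  rcases l with _ | ⟨y, l⟩
  · simp at hl
  have hl' : l.length = n := by simpa using hl
  have hren : (dl n 0 : CobP p n →+* CobP p (n + 1)) =
      (rename (Prod.map Fin.succ id) : CobP p n →ₐ[ZMod p] CobP p (n + 1)).toRingHom := by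
    apply hom_ext_P
    intro ki
    rw [dl_X, if_neg (by omega), if_neg (by omega)]
    simp [Prod.map]
  have hinj : Function.Injective (Prod.map Fin.succ id : Fin n × ℕ → Fin (n + 1) × ℕ) :=
    (Fin.succ_injective n).prodMap Function.injective_id
  have hE : toE p (n + 1) (y :: l) = (y.sum fun v c => Finsupp.single ((0 : Fin (n + 1)), v.1)
      (c * p ^ v.2)) + (toE p n l).mapDomain (Prod.map Fin.succ id) := by
    rw [toE, Fin.sum_univ_succ, toE, Finsupp.mapDomain_finsetSum]
    congr 1
    refine Finset.sum_congr rfl fun k _ => ?_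
    simp only [Finsupp.sum, Finsupp.mapDomain_finsetSum, Finsupp.mapDomain_single]
    rfl
  rw [fc, hren]
  by_cases hy : y = 0
  · subst hy
    rw [if_pos rfl, symb, symb]
    have hR : Red p (0 :: l) ↔ Red p l := by
      unfold Red
      simp only [List.mem_cons, forall_eq_or_imp, Finsupp.coe_zero, Pi.zero_apply]
      exact ⟨fun h => h.2, fun h => ⟨fun _ => hp.out.pos, h⟩⟩
    have hf : fac (0 :: l) = fac l := by simp [fac]
    simp only [hl, hl', hR, true_and, hf]
    split_ifs
    · rw [hE, Finsupp.sum_zero_index, zero_add]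
      congr 1
      exact coeff_rename_mapDomain _ hinj _ _
    · rfl
  · rw [if_neg hy, symb]
    split_ifs
    · have h0 : coeff (toE p (n + 1) (y :: l)) (rename (Prod.map Fin.succ id) z :
          CobP p (n + 1)) = 0 := by
        apply coeff_rename_eq_zero
        intro u hu
        exfalso
        apply hy
        ext ⟨i, s⟩
        have h1 := DFunLike.congr_fun hu ((0 : Fin (n + 1)), i)
        rw [hE, Finsupp.add_apply, Finsupp.mapDomain_of_notMem_range, Finsupp.mapDomain_of_notMem_range,
          add_zero, Finsupp.sum_apply] at h1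
        · have h2 := (Finset.sum_eq_zero_iff.1 h1.symm) (i, s)
          simp only [Finsupp.single_eq_same] at h2
          by_contra h3
          have h4 := h2 (Finsupp.mem_support_iff.2 h3)
          rcases Nat.mul_eq_zero.1 h4 with h5 | h5
          · exact h3 h5
          · exact absurd h5 (pow_pos hp.out.pos s).ne'
        · rintro ⟨x, hx⟩
          exact Fin.succ_ne_zero _ (congrArg Prod.fst hx)
        · rintro ⟨x, hx⟩
          exact Fin.succ_ne_zero _ (congrArg Prod.fst hx)
      change _ * coeff (toE p (n + 1) (y :: l)) (rename (Prod.map Fin.succ id) z :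
          CobP p (n + 1)) = 0
      rw [h0, mul_zero]
    · rfl

theorem symb_dl_last (z : CobP p n) {l : List Ex} (hl : l.length = n + 1) :
    symb (n + 1) (dl n (n + 1) z) l = fc (n + 1) (symb n z) l := by
  classical
  obtain ⟨l', y, rfl⟩ : ∃ l' y, l = l' ++ [y] := by
    rcases List.eq_nil_or_concat l with h | ⟨l', y, h⟩
    · subst h; simp at hl
    · exact ⟨l', y, by rw [h, List.concat_eq_append]⟩
  have hl' : l'.length = n := by simpa using hl
  have hren : (dl n (n + 1) : CobP p n →+* CobP p (n + 1)) =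
      (rename (Prod.map Fin.castSucc id) : CobP p n →ₐ[ZMod p] CobP p (n + 1)).toRingHom := by
    apply hom_ext_P
    intro ki
    have := ki.1.2
    rw [dl_X, if_pos (by omega)]
    simp [Prod.map]
  have hinj : Function.Injective (Prod.map Fin.castSucc id : Fin n × ℕ → Fin (n + 1) × ℕ) :=
    (Fin.castSucc_injective n).prodMap Function.injective_id
  have hg1 : (l' ++ [y]).getD n 0 = y := by
    subst hl'
    rw [List.getD_append_right _ _ _ _ le_rfl]
    simp
  have hg2 : ∀ k : Fin n, (l' ++ [y]).getD k 0 = l'.getD k 0 := by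
    intro k
    exact List.getD_append _ _ _ _ (by rw [hl']; exact k.2)
  have hE : toE p (n + 1) (l' ++ [y]) = (toE p n l').mapDomain (Prod.map Fin.castSucc id) +
      (y.sum fun v c => Finsupp.single (Fin.last n, v.1) (c * p ^ v.2)) := by
    rw [toE, Fin.sum_univ_castSucc, toE, Finsupp.mapDomain_finsetSum]
    congr 1
    · refine Finset.sum_congr rfl fun k _ => ?_
      simp only [Finsupp.sum, Finsupp.mapDomain_finsetSum, Finsupp.mapDomain_single,
        Fin.val_castSucc, hg2]
      rfl
    · rw [Fin.val_last, hg1]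
  have hfc : fc (n + 1) (symb n z) (l' ++ [y]) = if y = 0 then symb n z l' else 0 := by
    subst hl'
    exact fc_last l' _ y
  rw [hfc, hren]
  by_cases hy : y = 0
  · subst hy
    rw [if_pos rfl, symb, symb]
    have hR : Red p (l' ++ [0]) ↔ Red p l' := by
      unfold Red
      constructor
      · intro h m hm v
        exact h m (List.mem_append_left _ hm) v
      · intro h m hm v
        rcases List.mem_append.1 hm with h1 | h1
        · exact h m h1 v
        · rw [List.mem_singleton] at h1
          subst h1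
          exact hp.out.pos
    have hf : fac (l' ++ [0]) = fac l' := by simp [fac]
    simp only [hl, hl', hR, true_and, hf]
    split_ifs
    · rw [hE, Finsupp.sum_zero_index, add_zero]
      congr 1
      exact coeff_rename_mapDomain _ hinj _ _
    · rfl
  · rw [if_neg hy, symb]
    split_ifs
    · have h0 : coeff (toE p (n + 1) (l' ++ [y])) (rename (Prod.map Fin.castSucc id) z :
          CobP p (n + 1)) = 0 := by
        apply coeff_rename_eq_zero
        intro u hu
        exfalso
        apply hy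
        ext ⟨i, s⟩
        have h1 := DFunLike.congr_fun hu (Fin.last n, i)
        rw [hE, Finsupp.add_apply, Finsupp.mapDomain_of_notMem_range, Finsupp.mapDomain_of_notMem_range,
          zero_add, Finsupp.sum_apply] at h1
        · have h2 := (Finset.sum_eq_zero_iff.1 h1.symm) (i, s)
          simp only [Finsupp.single_eq_same] at h2
          by_contra h3
          have h4 := h2 (Finsupp.mem_support_iff.2 h3)
          rcases Nat.mul_eq_zero.1 h4 with h5 | h5
          · exact h3 h5
          · exact absurd h5 (pow_pos hp.out.pos s).ne'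
        · rintro ⟨x, hx⟩
          exact (Fin.castSucc_lt_last _).ne (congrArg Prod.fst hx)
        · rintro ⟨x, hx⟩
          exact (Fin.castSucc_lt_last _).ne (congrArg Prod.fst hx)
      change _ * coeff (toE p (n + 1) (l' ++ [y])) (rename (Prod.map Fin.castSucc id) z :
          CobP p (n + 1)) = 0
      rw [h0, mul_zero]
    · rfl

end Outer

section Main

variable {p : ℕ} [hp : Fact p.Prime] {μ : ℕ × ℕ → ℕ} {n m : ℕ}

theorem symb_zsmul (c : ℤ) (z : CobP p n) (l : List Ex) : symb n (c • z) l = c • symb n z l := by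
  rw [← Int.cast_smul_eq_zsmul (ZMod p) c z, symb_smul, ← Int.cast_smul_eq_zsmul (ZMod p) c,
    smul_eq_mul]

theorem symb_sum {ι : Type} (s : Finset ι) (z : ι → CobP p n) (l : List Ex) :
    symb n (∑ i ∈ s, z i) l = ∑ i ∈ s, symb n (z i) l := by
  classical
  induction s using Finset.induction_on with
  | empty => simp [symb_zero]
  | insert i s hi ih => rw [Finset.sum_insert hi, Finset.sum_insert hi, symb_add, ih]

/-- (L) leading part of the differential -/
theorem symb_dP' (hμ : IsMu p μ) {z : CobP p n} (hz : z ∈ Fil μ n (m + 1)) {l : List Ex}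
    (hl : m ≤ lev μ l) (hln : l.length = n + 1) :
    symb (n + 1) (dP n z) l = dK (symb n z) l := by
  rw [dP_apply, symb_sum, dK_eq _ hln]
  refine Finset.sum_congr rfl fun j hj => ?_
  rw [Finset.mem_range] at hj
  rw [symb_zsmul]
  congr 1
  rcases Nat.eq_zero_or_pos j with rfl | hj0
  · exact symb_dl_zero z hln
  · rcases Nat.lt_or_ge n j with h | h
    · have : j = n + 1 := by omega
      subst this
      exact symb_dl_last z hln
    · rw [symb_dl_mid hμ hz hl hln ⟨hj0, h⟩, fc_mid j _ l hj0 (by omega)]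

/-- (L), in the form of `H632/Iface.lean` -/
theorem symb_dP (hμ : IsMu p μ) {z : CobP p n} (hz : z ∈ Fil μ n (m + 1)) {l : List Ex}
    (hl : m ≤ lev μ l) (hln : l.length = n + 1) (_hr : Red p l) :
    symb (n + 1) (dP n z) l = dK (symb n z) l := symb_dP' hμ hz hl hln

end Main

end Vale.Agent.P257.H134

end
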