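import Mathlib.Algebra.MvPolynomial.CommRing
import Mathlib.Algebra.Order.Interval.Finset.Basic
import Mathlib.Data.Nat.Choose.Sum
import Mathlib.Data.Nat.Choose.Dvd
import Mathlib.Algebra.CharP.Lemmas
import Mathlib.Algebra.BigOperators.Intervals
import Mathlib.Tactic.LinearCombination
import Mathlib.Tactic.Ring
import Mathlib.Data.ZMod.Basic
import Mathlib.Data.Fin.VecNotation
import Mathlib.RingTheory.MvPolynomial.Basic

/-!
# Divided p-th powers of sums

`cp p x y = ((x + y)^p - x^p - y^p) / p` as an integral polynomial in `x, y`.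
It is a symmetric 2-cocycle; `W2 p B` is the abelian group `B × B` with
` (x,u) + (y,v) = (x+y, u+v+cp x y)`.  For a finite family `x` the second component of
`∑ (x_i, 0)` is denoted `gam p s x`; it is `((∑ x_i)^p - ∑ x_i^p)/p`.
-/

namespace Vale.Agent.P257.H134

open Finset

variable {B : Type*} [CommRing B]

/-- `((x + y)^p - x^p - y^p) / p`. -/
def cp (p : ℕ) (x y : B) : B :=
  ∑ k ∈ Ioo 0 p, ((p.choose k / p : ℕ) : B) * (x ^ k * y ^ (p - k))

theorem map_cp {C : Type*} [CommRing C] (p : ℕ) (f : B →+* C) (x y : B) :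
    f (cp p x y) = cp p (f x) (f y) := by
  simp [cp, map_sum]

theorem p_mul_cp (p : ℕ) [hp : Fact p.Prime] (x y : B) :
    (p : B) * cp p x y = (x + y) ^ p - x ^ p - y ^ p := by
  have h0 : 0 < p := hp.out.pos
  have h1 : (x + y) ^ p = x ^ p + y ^ p +
      ∑ k ∈ Ioo 0 p, x ^ k * y ^ (p - k) * (p.choose k : B) := by
    rw [add_pow, sum_range_succ, Nat.choose_self, Nat.sub_self, pow_zero, Nat.cast_one, mul_one,
      mul_one, range_eq_Ico, Ico_eq_cons_Ioo h0, sum_cons]
    simp only [pow_zero, one_mul, Nat.sub_zero, Nat.choose_zero_right, Nat.cast_one, mul_one]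
    ring
  rw [h1, cp, mul_sum]
  have h2 : x ^ p + y ^ p + ∑ k ∈ Ioo 0 p, x ^ k * y ^ (p - k) * (p.choose k : B) - x ^ p - y ^ p
      = ∑ k ∈ Ioo 0 p, x ^ k * y ^ (p - k) * (p.choose k : B) := by ring
  rw [h2]
  refine sum_congr rfl fun k hk => ?_
  rw [mem_Ioo] at hk
  obtain ⟨m, hm⟩ : p ∣ p.choose k := hp.out.dvd_choose_self (by omega) hk.2
  rw [hm, Nat.mul_div_cancel_left _ h0]
  push_cast
  ring

theorem cp_zero_left (p : ℕ) (y : B) : cp p 0 y = 0 := by
  refine sum_eq_zero fun k hk => ?_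
  rw [mem_Ioo] at hk
  rw [zero_pow (by omega), zero_mul, mul_zero]

theorem cp_zero_right (p : ℕ) (x : B) : cp p x 0 = 0 := by
  refine sum_eq_zero fun k hk => ?_
  rw [mem_Ioo] at hk
  rw [zero_pow (by omega), mul_zero, mul_zero]

theorem cp_smul (p : ℕ) (c x y : B) : cp p (c * x) (c * y) = c ^ p * cp p x y := by
  rw [cp, cp, mul_sum]
  refine sum_congr rfl fun k hk => ?_
  rw [mem_Ioo] at hk
  have : c ^ p = c ^ k * c ^ (p - k) := by rw [← pow_add]; congr 1; omega
  rw [mul_pow, mul_pow, this]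
  ring

/-- an identity of integral polynomials holds if `p` times it does -/
theorem cancel_p {σ : Type*} (p : ℕ) [hp : Fact p.Prime] {a b : MvPolynomial σ ℤ}
    (h : (p : MvPolynomial σ ℤ) * a = p * b) : a = b := by
  have h0 : (p : MvPolynomial σ ℤ) ≠ 0 := Nat.cast_ne_zero.mpr hp.out.ne_zero
  exact mul_left_cancel₀ h0 h

theorem cp_comm (p : ℕ) [hp : Fact p.Prime] (x y : B) : cp p x y = cp p y x := by
  let f : MvPolynomial (Fin 2) ℤ →+* B := MvPolynomial.eval₂Hom (Int.castRingHom B) ![x, y]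
  have h : cp p (MvPolynomial.X 0 : MvPolynomial (Fin 2) ℤ) (MvPolynomial.X 1) =
      cp p (MvPolynomial.X 1) (MvPolynomial.X 0) := by
    apply cancel_p p
    rw [p_mul_cp, p_mul_cp]
    ring
  have := congrArg f h
  rw [map_cp, map_cp] at this
  simpa [f] using this

theorem cp_assoc (p : ℕ) [hp : Fact p.Prime] (x y z : B) :
    cp p x y + cp p (x + y) z = cp p y z + cp p x (y + z) := by
  let f : MvPolynomial (Fin 3) ℤ →+* B := MvPolynomial.eval₂Hom (Int.castRingHom B) ![x, y, z]
  have h : cp p (MvPolynomial.X 0 : MvPolynomial (Fin 3) ℤ) (MvPolynomial.X 1) +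
      cp p (MvPolynomial.X 0 + MvPolynomial.X 1) (MvPolynomial.X 2) =
      cp p (MvPolynomial.X 1) (MvPolynomial.X 2) +
      cp p (MvPolynomial.X 0) (MvPolynomial.X 1 + MvPolynomial.X 2) := by
    apply cancel_p p
    rw [mul_add, mul_add, p_mul_cp, p_mul_cp, p_mul_cp, p_mul_cp]
    ring
  have := congrArg f h
  rw [map_add, map_add, map_cp, map_cp, map_cp, map_cp] at this
  simpa [f] using this

theorem cp_neg (p : ℕ) [hp : Fact p.Prime] (h2 : p ≠ 2) (x : B) : cp p x (-x) = 0 := by
  let f : MvPolynomial (Fin 1) ℤ →+* B := MvPolynomial.eval₂Hom (Int.castRingHom B) ![x]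
  have h : cp p (MvPolynomial.X 0 : MvPolynomial (Fin 1) ℤ) (-MvPolynomial.X 0) = 0 := by
    apply cancel_p p
    have ho : Odd p := hp.out.odd_of_ne_two h2
    rw [p_mul_cp, ho.neg_pow, add_neg_cancel, zero_pow hp.out.ne_zero]
    ring
  have := congrArg f h
  rw [map_cp] at this
  simpa [f] using this

/-- The abelian group `B × B` with `(x,u) + (y,v) = (x+y, u+v+cp x y)`. -/
@[ext] structure W2 (p : ℕ) (B : Type*) where
  /-- first component -/
  fst : B
  /-- second component -/
  snd : B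

namespace W2

variable {p : ℕ}

instance : Add (W2 p B) := ⟨fun a b => ⟨a.fst + b.fst, a.snd + b.snd + cp p a.fst b.fst⟩⟩
instance : Zero (W2 p B) := ⟨⟨0, 0⟩⟩

@[simp] theorem add_fst (a b : W2 p B) : (a + b).fst = a.fst + b.fst := rfl
@[simp] theorem add_snd (a b : W2 p B) : (a + b).snd = a.snd + b.snd + cp p a.fst b.fst := rfl
@[simp] theorem zero_fst : (0 : W2 p B).fst = 0 := rfl
@[simp] theorem zero_snd : (0 : W2 p B).snd = 0 := rfl

variable [hp : Fact p.Prime]

instance : AddCommMonoid (W2 p B) where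
  add_assoc a b c := by
    ext
    · simp [add_assoc]
    · simp only [add_snd, add_fst]
      linear_combination cp_assoc p a.fst b.fst c.fst
  zero_add a := by ext <;> simp [cp_zero_left]
  add_zero a := by ext <;> simp [cp_zero_right]
  add_comm a b := by
    ext
    · simp [add_comm]
    · simp only [add_snd, cp_comm p a.fst b.fst]
      ring
  nsmul := nsmulRec

/-- `x ↦ (x, 0)` -/
def te (p : ℕ) (x : B) : W2 p B := ⟨x, 0⟩

/-- `u ↦ (0, u)` -/
def ve (p : ℕ) (u : B) : W2 p B := ⟨0, u⟩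

omit hp in
@[simp] theorem te_fst (x : B) : (te p x).fst = x := rfl
omit hp in
@[simp] theorem te_snd (x : B) : (te p x).snd = 0 := rfl
omit hp in
@[simp] theorem ve_fst (x : B) : (ve p x).fst = 0 := rfl
omit hp in
@[simp] theorem ve_snd (x : B) : (ve p x).snd = x := rfl

/-- the first component is additive -/
def fstHom (p : ℕ) [Fact p.Prime] (B : Type*) [CommRing B] : W2 p B →+ B where
  toFun := fst
  map_zero' := rfl
  map_add' _ _ := rfl

/-- `ve` is additive -/
def veHom (p : ℕ) [Fact p.Prime] (B : Type*) [CommRing B] : B →+ W2 p B where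
  toFun := ve p
  map_zero' := rfl
  map_add' u v := by ext <;> simp [cp_zero_left]

/-- scaling by `c`: `(x,u) ↦ (c x, c^p u)` -/
def scaleHom (p : ℕ) [Fact p.Prime] {B : Type*} [CommRing B] (c : B) : W2 p B →+ W2 p B where
  toFun a := ⟨c * a.fst, c ^ p * a.snd⟩
  map_zero' := by ext <;> simp
  map_add' a b := by
    ext
    · simp [mul_add]
    · simp only [add_snd, cp_smul]
      ring

/-- base change -/
def mapHom (p : ℕ) [Fact p.Prime] {B C : Type*} [CommRing B] [CommRing C] (f : B →+* C) :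
    W2 p B →+ W2 p C where
  toFun a := ⟨f a.fst, f a.snd⟩
  map_zero' := by ext <;> simp
  map_add' a b := by
    ext
    · simp
    · simp [map_cp]

omit hp in
theorem add_ve (a : W2 p B) (u : B) : a + ve p u = ⟨a.fst, a.snd + u⟩ := by
  ext
  · simp
  · simp [cp_zero_right]

end W2

section gam

variable (p : ℕ) [hp : Fact p.Prime] {ι κ : Type*}

/-- `((∑ x_i)^p - ∑ x_i^p)/p`, as an integral polynomial in the family `x`. -/
def gam (s : Finset ι) (x : ι → B) : B := (∑ i ∈ s, W2.te p (x i)).snd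

theorem sum_te (s : Finset ι) (x : ι → B) :
    ∑ i ∈ s, W2.te p (x i) = ⟨∑ i ∈ s, x i, gam p s x⟩ := by
  ext
  · change W2.fstHom p B (∑ i ∈ s, W2.te p (x i)) = _
    rw [map_sum]
    rfl
  · rfl

theorem sum_te' (s : Finset ι) (x : ι → B) :
    ∑ i ∈ s, W2.te p (x i) = W2.te p (∑ i ∈ s, x i) + W2.ve p (gam p s x) := by
  rw [sum_te, W2.add_ve]
  simp

theorem gam_empty (x : ι → B) : gam p ∅ x = 0 := by simp [gam]

theorem gam_singleton (i : ι) (x : ι → B) : gam p {i} x = 0 := by simp [gam]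

theorem gam_congr {s t : Finset ι} {x y : ι → B} (h : s = t) (hx : ∀ i ∈ t, x i = y i) :
    gam p s x = gam p t y := by
  subst h
  unfold gam
  rw [sum_congr rfl fun i hi => by rw [hx i hi]]

theorem map_gam {C : Type*} [CommRing C] (f : B →+* C) (s : Finset ι) (x : ι → B) :
    f (gam p s x) = gam p s (fun i => f (x i)) := by
  have h := congrArg (W2.mapHom p f) (sum_te p s x)
  rw [map_sum] at h
  have h2 : ∀ i, W2.mapHom p f (W2.te p (x i)) = W2.te p (f (x i)) := by
    intro i
    ext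
    · rfl
    · exact map_zero f
  simp only [h2] at h
  rw [sum_te] at h
  exact (congrArg W2.snd h).symm

theorem gam_smul (c : B) (s : Finset ι) (x : ι → B) :
    gam p s (fun i => c * x i) = c ^ p * gam p s x := by
  have h := congrArg (W2.scaleHom p c) (sum_te p s x)
  rw [map_sum] at h
  have h2 : ∀ i, W2.scaleHom p c (W2.te p (x i)) = W2.te p (c * x i) := by
    intro i
    ext
    · rfl
    · exact mul_zero _
  simp only [h2] at h
  rw [sum_te] at h
  exact congrArg W2.snd h

theorem gam_smul' (c : B) (s : Finset ι) (x : ι → B) :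
    gam p s (fun i => x i * c) = gam p s x * c ^ p := by
  simp only [mul_comm _ c, gam_smul]
  ring

/-- The grouping lemma. -/
theorem gam_group (s : Finset ι) (t : ι → Finset κ) (x : ι → κ → B) :
    gam p (s.sigma t) (fun ij => x ij.1 ij.2) =
      gam p s (fun i => ∑ j ∈ t i, x i j) + ∑ i ∈ s, gam p (t i) (x i) := by
  have h1 : ∑ ij ∈ s.sigma t, W2.te p (x ij.1 ij.2) =
      ∑ i ∈ s, (W2.te p (∑ j ∈ t i, x i j) + W2.ve p (gam p (t i) (x i))) := by
    rw [sum_sigma]
    exact sum_congr rfl fun i _ => sum_te' p (t i) (x i)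
  rw [sum_add_distrib] at h1
  have h2 : ∑ i ∈ s, W2.ve p (gam p (t i) (x i)) = W2.ve p (∑ i ∈ s, gam p (t i) (x i)) :=
    (map_sum (W2.veHom p B) _ _).symm
  rw [h2, sum_te p (s.sigma t) fun ij => x ij.1 ij.2, sum_te p s, W2.add_ve] at h1
  exact congrArg W2.snd h1

theorem gam_reindex [DecidableEq κ] {s : Finset ι} {t : Finset κ} (e : ι → κ)
    (he : Set.InjOn e s) (hst : s.image e = t) (x : κ → B) : gam p t x = gam p s (fun i => x (e i)) := by
  subst hst
  unfold gam
  rw [sum_image he]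

theorem gam_pair [DecidableEq ι] {i j : ι} (h : i ≠ j) (x : ι → B) :
    gam p {i, j} x = cp p (x i) (x j) := by
  unfold gam
  rw [sum_pair h]
  simp

theorem gam_subset {s t : Finset ι} (h : t ⊆ s) (x : ι → B) (hx : ∀ i ∈ s, i ∉ t → x i = 0) :
    gam p s x = gam p t x := by
  unfold gam
  rw [sum_subset h]
  intro i hi hi'
  rw [hx i hi hi']
  rfl

theorem gam_insert [DecidableEq ι] {s : Finset ι} {a : ι} (ha : a ∉ s) (x : ι → B) :
    gam p (insert a s) x = gam p s x + cp p (x a) (∑ i ∈ s, x i) := by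
  have := sum_te p (insert a s) x
  rw [sum_insert ha, sum_te p s x] at this
  have := congrArg W2.snd this
  simp only [W2.add_snd, W2.te_snd, W2.te_fst, zero_add] at this
  exact this.symm

theorem p_mul_gam (s : Finset ι) (x : ι → B) :
    (p : B) * gam p s x = (∑ i ∈ s, x i) ^ p - ∑ i ∈ s, x i ^ p := by
  classical
  induction s using Finset.induction_on with
  | empty => simp [gam_empty, hp.out.ne_zero]
  | insert a s ha ih =>
    rw [gam_insert p ha, mul_add, ih, p_mul_cp, sum_insert ha, sum_insert ha]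
    ring

end gam

end Vale.Agent.P257.H134
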